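import Vale.Agent.P057FT.Ball
import Vale.Agent.P057Z.Km.Cs
import Vale.Agent.P057Z.Km.Apa
import Vale.Agent.P057Z.Km.Apb
import Vale.Agent.P057G.Poi

/-! Almost periodicity on balls of the integer lattice, with real frequencies. -/

set_option linter.all false

open Finset
open scoped BigOperators Real

namespace Vale.Agent.P057FT

open Vale.Agent.P057Z.Km Vale.Agent.P057HU Vale.Agent.P057G

noncomputable section

variable {n : Type} [Fintype n] [DecidableEq n]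

/-- reduction of the coordinates -/
def rd (n : Type) (Q : ℕ) : (n → ℤ) →+ (n → ZMod Q) where
  toFun x := fun i => (x i : ZMod Q)
  map_zero' := by funext i; simp
  map_add' x y := by funext i; simp

theorem rd_inj (F : Finset (n → ℤ)) : ∃ Q : ℕ, Set.InjOn (rd n (Q + 1)) F := by
  refine ⟨2 * ∑ x ∈ F, ∑ i, (x i).natAbs, fun x hx y hy h => funext fun i => ?_⟩
  have b : ∀ x ∈ F, (x i).natAbs ≤ ∑ x ∈ F, ∑ i, (x i).natAbs := fun x hx =>
    (single_le_sum (f := fun i => (x i).natAbs) (fun _ _ => Nat.zero_le _) (mem_univ i)).trans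
      (single_le_sum (f := fun x : n → ℤ => ∑ i, (x i).natAbs) (fun _ _ => Nat.zero_le _) hx)
  have h1 := (ZMod.intCast_eq_intCast_iff_dvd_sub (x i) (y i)
    (2 * ∑ x ∈ F, ∑ i, (x i).natAbs + 1)).1 (congrFun h i)
  have h2 := b x hx
  have h3 := b y hy
  have h4 := Int.eq_zero_of_dvd_of_natAbs_lt_natAbs h1 (by omega)
  omega

theorem psi_image {G G' : Type} [AddCommGroup G] [DecidableEq G] [AddCommGroup G'] [DecidableEq G']
    (p : G →+ G') (F A1 A2 S : Finset G) (x : G) (hp : Set.InjOn p F) (h1 : A1 ⊆ F) (h2 : A2 ⊆ F)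
    (hS : S ⊆ F) (hx : ∀ a ∈ A1, ∀ a' ∈ A2, a + a' + x ∈ F) :
    psi (A1.image p) (A2.image p) (S.image p) (p x) = psi A1 A2 S x := by
  unfold psi
  rw [card_image_of_injOn (hp.mono h1), card_image_of_injOn (hp.mono h2)]
  congr 2
  symm
  refine card_bij (fun q _ => (p q.1, p q.2)) (fun q hq => ?_) (fun q hq q' hq' e => ?_)
    fun q hq => ?_
  · simp only [mem_filter, mem_product] at hq ⊢
    refine ⟨⟨mem_image_of_mem _ hq.1.1, mem_image_of_mem _ hq.1.2⟩, ?_⟩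
    rw [← map_add, ← map_add]
    exact mem_image_of_mem _ hq.2
  · simp only [mem_filter, mem_product, Prod.mk.injEq] at hq hq' e
    exact Prod.ext (hp (h1 hq.1.1) (h1 hq'.1.1) e.1) (hp (h2 hq.1.2) (h2 hq'.1.2) e.2)
  · simp only [mem_filter, mem_product, mem_image] at hq
    obtain ⟨⟨⟨a, ha, e1⟩, a', ha', e2⟩, s, hs, e3⟩ := hq
    refine ⟨(a, a'), mem_filter.2 ⟨mem_product.2 ⟨ha, ha'⟩, ?_⟩, Prod.ext e1 e2⟩
    rw [← e1, ← e2, ← map_add, ← map_add] at e3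
    rw [← hp (hS hs) (hx a ha a' ha') e3]
    exact hs

theorem ee_zmul (t : ℝ) (m : ℤ) : ee (t * m) = ee t ^ m := by
  unfold ee
  rw [← Complex.exp_int_mul]
  congr 1
  push_cast
  ring

theorem ee_sub_one (t : ℝ) (m : ℤ) : ‖ee t - 1‖ ≤ 7 * |t - m| := by
  have e : ee t = ee (t - m) := by
    conv_lhs => rw [show t = t - m + m by ring, ee_add, ee_int, mul_one]
  rw [e]
  unfold ee
  rw [show (2 * π * Complex.I * ((t - m : ℝ) : ℂ) : ℂ) = Complex.I * ((2 * π * (t - m) : ℝ) : ℂ) by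
    push_cast; ring]
  refine Real.norm_exp_I_mul_ofReal_sub_one_le.trans ?_
  rw [Real.norm_eq_abs, abs_mul, abs_of_pos (by positivity : 0 < 2 * π)]
  exact mul_le_mul_of_nonneg_right (by linarith [Real.pi_lt_d2]) (abs_nonneg _)

/-- a unitary character of the lattice has a real frequency -/
theorem char_real (lam : AddChar (n → ℤ) ℂ) (h : ∀ x, ‖lam x‖ = 1) :
    ∃ θ : n → ℝ, ∀ x, lam x = ee (θ ⬝ᵥ zc x) := by
  refine ⟨fun i => Complex.arg (lam (Pi.single i 1)) / (2 * π), fun x => ?_⟩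
  have e : ∀ i, ee (Complex.arg (lam (Pi.single i 1)) / (2 * π)) = lam (Pi.single i 1) := by
    intro i
    have h1 := Complex.norm_mul_exp_arg_mul_I (lam (Pi.single i 1))
    rw [h, Complex.ofReal_one, one_mul] at h1
    rw [← h1]
    unfold ee
    rw [h1]
    refine Eq.trans ?_ h1
    congr 1
    have : (π : ℂ) ≠ 0 := by exact_mod_cast Real.pi_ne_zero
    push_cast
    field_simp
  have k : ∀ s : Finset n, lam (∑ i ∈ s, Pi.single i (x i)) =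
      ee (∑ i ∈ s, Complex.arg (lam (Pi.single i 1)) / (2 * π) * (x i : ℝ)) := by
    intro s
    induction s using Finset.induction_on with
    | empty => simp [ee_zero]
    | insert a s ha ih =>
      rw [sum_insert ha, sum_insert ha, AddChar.map_add_eq_mul, ee_add, ih, ee_zmul, e,
        ← AddChar.map_zsmul_eq_zpow, ← Pi.single_smul, smul_eq_mul, mul_one]
  have k1 := k univ
  rw [univ_sum_single] at k1
  exact k1

/-- almost periods on the integer lattice -/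
theorem apa_z (A1 A2 S D D' E E' U U2 : Finset (n → ℤ)) (ε κ K : ℝ) (k ns j : ℕ)
    (h1 : A1.Nonempty) (h2 : A2.Nonempty) (hD : D.Nonempty) (hE : E.Nonempty) (h0 : 0 ∈ E')
    (a1 : ∀ a ∈ A2, ∀ t ∈ D, a + t ∈ U2)
    (a2 : ∀ a ∈ A1, ∀ a' ∈ A2, ∀ x ∈ E', ∀ d d' : Fin k → n → ℤ, (∀ i, d i ∈ D ∧ d' i ∈ D) →
      a + a' + x + ∑ i, (d i - d' i) ∈ U)
    (hU : (#U : ℝ) ≤ K * #A1) (hU2 : (#U2 : ℝ) ≤ K * #A2)
    (a3 : ∀ x ∈ D, ∀ e : Fin j → n → ℤ, (∀ i, e i ∈ E) → x - ∑ i, e i ∈ D')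
    (cD : (#D' : ℝ) ≤ 2 * #D) (a4 : ∀ x ∈ E', (#{e ∈ E | e + x ∉ E} : ℝ) ≤ κ * #E) (hκ : 0 ≤ κ)
    (hε : 0 < ε) (hε1 : ε ≤ 1) (n1 : 4 * Real.exp (-(ε ^ 2 * ns / 4)) * K ≤ ε)
    (n2 : 16 * Real.log (8 * K ^ ns) < j) :
    ∃ (r : ℕ) (θ : Fin r → n → ℝ), r ≤ j ∧ ∀ x ∈ E', (∀ i, ∃ m : ℤ, 7 * |θ i ⬝ᵥ zc x - m| ≤ κ) →
      |psi A1 A2 S x - psi A1 A2 S 0| ≤ 8 * k * ε + √K * ((j + 4) * κ + 2 / 4 ^ k) := by
  set F := A1 ∪ A2 ∪ S ∪ D ∪ E ∪ ((A1 ×ˢ A2) ×ˢ E').image fun q => q.1.1 + q.1.2 + q.2 with hF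
  obtain ⟨Q, hQ⟩ := rd_inj F
  set p := rd n (Q + 1) with hp
  have s1 : A1 ⊆ F := fun x hx => by simp only [hF, mem_union]; tauto
  have s2 : A2 ⊆ F := fun x hx => by simp only [hF, mem_union]; tauto
  have s3 : S ⊆ F := fun x hx => by simp only [hF, mem_union]; tauto
  have s4 : D ⊆ F := fun x hx => by simp only [hF, mem_union]; tauto
  have s5 : E ⊆ F := fun x hx => by simp only [hF, mem_union]; tauto
  have s6 : ∀ x ∈ E', ∀ a ∈ A1, ∀ a' ∈ A2, a + a' + x ∈ F := fun x hx a ha a' ha' =>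
    mem_union_right _ (mem_image.2 ⟨((a, a'), x), by simp [ha, ha', hx], rfl⟩)
  have ci : ∀ B : Finset (n → ℤ), (#(B.image p) : ℝ) ≤ #B := fun B => by
    exact_mod_cast card_image_le
  obtain ⟨Λ, hΛ, h⟩ := apa_of cs (n → ZMod (Q + 1)) (A1.image p) (A2.image p) (S.image p)
    (D.image p) (D'.image p) (E.image p) (E'.image p) (U.image p) (U2.image p) ε κ K k ns j
    (h1.image _) (h2.image _) (hD.image _) (hE.image _) (mem_image.2 ⟨0, h0, map_zero _⟩)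
    (by
      intro a0 ha0 t0 ht0
      obtain ⟨a, ha, rfl⟩ := mem_image.1 ha0
      obtain ⟨t, ht, rfl⟩ := mem_image.1 ht0
      rw [← map_add]
      exact mem_image_of_mem _ (a1 a ha t ht))
    (by
      intro a0 ha0 a0' ha0' x0 hx0 d d' hd
      obtain ⟨a, ha, rfl⟩ := mem_image.1 ha0
      obtain ⟨a', ha', rfl⟩ := mem_image.1 ha0'
      obtain ⟨x, hx, rfl⟩ := mem_image.1 hx0
      choose e he he' using fun i => mem_image.1 (hd i).1
      choose e' hf hf' using fun i => mem_image.1 (hd i).2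
      refine mem_image.2 ⟨_, a2 a ha a' ha' x hx e e' fun i => ⟨he i, hf i⟩, ?_⟩
      simp only [map_add, map_sum, map_sub, he', hf'])
    ((ci U).trans (by rw [card_image_of_injOn (hQ.mono s1)]; exact hU))
    ((ci U2).trans (by rw [card_image_of_injOn (hQ.mono s2)]; exact hU2))
    (by
      intro x0 hx0 d hd
      obtain ⟨x, hx, rfl⟩ := mem_image.1 hx0
      choose e he he' using fun i => mem_image.1 (hd i)
      refine mem_image.2 ⟨_, a3 x hx e he, ?_⟩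
      simp only [map_sum, map_sub, he'])
    ((ci D').trans (by rw [card_image_of_injOn (hQ.mono s4)]; exact cD))
    (by
      intro x0 hx0
      obtain ⟨x, hx, rfl⟩ := mem_image.1 hx0
      rw [card_image_of_injOn (hQ.mono s5)]
      refine le_trans ?_ ((ci _).trans (a4 x hx))
      refine Nat.cast_le.2 (card_le_card fun y hy => ?_)
      obtain ⟨hy1, hy2⟩ := mem_filter.1 hy
      obtain ⟨e, he, rfl⟩ := mem_image.1 hy1
      refine mem_image_of_mem _ (mem_filter.2 ⟨he, fun h3 => hy2 ?_⟩)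
      rw [← map_add]
      exact mem_image_of_mem _ h3)
    hκ hε hε1 n1 n2
  choose θ hθ using fun lam : AddChar (n → ZMod (Q + 1)) ℂ =>
    char_real (lam.compAddMonoidHom p) fun x => AddChar.norm_apply lam (p x)
  refine ⟨#Λ, fun i => θ (Λ.equivFin.symm i), hΛ, fun x hx hi => ?_⟩
  have h3 := h (p x) (mem_image_of_mem _ hx) fun lam hl => by
    obtain ⟨m, hm⟩ := hi (Λ.equivFin ⟨lam, hl⟩)
    simp only [Equiv.symm_apply_apply] at hm
    have e : lam (p x) = _ := hθ lam x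
    rw [e]
    exact (ee_sub_one _ m).trans hm
  rwa [← map_zero p, psi_image p F A1 A2 S x hQ s1 s2 s3 (s6 x hx),
    psi_image p F A1 A2 S 0 hQ s1 s2 s3 (s6 0 h0)] at h3

/-- almost periodicity on balls -/
theorem apb_bl (ε' : ℝ) (hε' : 0 < ε') : ∃ X0 : ℝ, ∀ X : ℝ, X0 ≤ X →
    ∀ (n : Type) [Fintype n] [DecidableEq n] (N : (n → ℤ) → ℝ) (bl : ℝ → Finset (n → ℤ)) (D : ℕ)
      (ρ : ℝ) (A1 A2 S U U2 : Finset (n → ℤ)), Bl N bl D → (D : ℝ) ≤ Real.exp X → 0 < ρ →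
      A1.Nonempty → A2.Nonempty → (#U : ℝ) ≤ Real.exp X * #A1 → (#U2 : ℝ) ≤ Real.exp X * #A2 →
      (∀ a ∈ A2, ∀ x, N x ≤ ρ → a + x ∈ U2) → (∀ a ∈ A1, ∀ a' ∈ A2, ∀ x, N x ≤ ρ → a + a' + x ∈ U) →
      ∃ (r : ℕ) (θ : Fin r → n → ℝ), (r : ℝ) ≤ X ^ 6 ∧ ∀ x, N x ≤ ρ * Real.exp (-(10 * X)) →
        (∀ i, ∃ m : ℤ, |θ i ⬝ᵥ zc x - m| ≤ Real.exp (-(3 * X))) →
        |psi A1 A2 S x - psi A1 A2 S 0| ≤ ε' := by
  obtain ⟨ε, hε, hε1, hle⟩ : ∃ ε : ℝ, 0 < ε ∧ ε ≤ 1 ∧ ε ≤ ε' :=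
    ⟨min ε' 1, lt_min hε' one_pos, min_le_right _ _, min_le_left _ _⟩
  refine ⟨12288 / ε ^ 2, fun X hX0 n _ _ N bl D ρ A1 A2 S U U2 hB hD hρ h1 h2 hU hU2 m2 m1 => ?_⟩
  have hX1 : 12288 ≤ ε ^ 2 * X := by rwa [div_le_iff₀ (by positivity), mul_comm] at hX0
  have hXp : 0 < X := lt_of_lt_of_le (by positivity) hX0
  have hX2 : 12288 ≤ ε * X := by nlinarith [mul_pos hε hXp]
  have hX : 12288 ≤ X := by nlinarith
  set σ := ρ * Real.exp (-(10 * X)) with hσdef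
  have hσ : 0 < σ := by positivity
  have hk := Nat.le_ceil X
  have hk' : (⌈X⌉₊ : ℝ) ≤ 2 * X := (Nat.ceil_lt_add_one hXp.le).le.trans (by linarith)
  have hk1 : 1 ≤ ⌈X⌉₊ := Nat.ceil_pos.2 hXp
  have hk2 : (1 : ℝ) ≤ ⌈X⌉₊ := by exact_mod_cast hk1
  have hj : (⌊X ^ 6⌋₊ : ℝ) ≤ X ^ 6 := Nat.floor_le (by positivity)
  have hj1 : 1 ≤ ⌊X ^ 6⌋₊ := Nat.le_floor (by rw [Nat.cast_one]; exact one_le_pow₀ (by linarith))
  have hj2 : (1 : ℝ) ≤ ⌊X ^ 6⌋₊ := by exact_mod_cast hj1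
  have e1 : 1 ≤ Real.exp X := Real.one_le_exp hXp.le
  have e4 : 1 ≤ Real.exp (4 * X) := Real.one_le_exp (by linarith)
  have hκ : 7 * Real.exp (-(3 * X)) ≤ 1 := by
    have h3 := Real.add_one_le_exp (3 * X)
    rw [Real.exp_neg, ← div_eq_mul_inv, div_le_one (Real.exp_pos _)]
    linarith
  have hW := Apb.width (RD := 3 * D + 1) (RE := ⌈Real.exp (4 * X)⌉₊) hX hk' hj
    (by push_cast; linarith) ((Nat.ceil_lt_add_one (by positivity)).le.trans (by linarith))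
  have hG : (5 : ℝ) ^ D ≤ Real.exp (2 * Real.exp X) := by
    refine le_trans ?_ (Real.exp_le_exp.2 (show (D : ℝ) * 2 ≤ _ by linarith))
    rw [Real.exp_nat_mul]
    refine pow_le_pow_left₀ (by norm_num) ?_ _
    have := Real.quadratic_le_exp_of_nonneg (x := 2) (by norm_num)
    linarith
  obtain ⟨rE, hE1, hE2, cE⟩ := hB.reg (J := ⌈Real.exp (4 * X)⌉₊)
    (c := 1 + 7 * Real.exp (-(3 * X))) hσ (Nat.ceil_pos.2 (by positivity)) (by positivity)
    (Apb.grow (by positivity) hκ hG (by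
      have h3 : Real.exp (4 * X) * Real.exp (-(3 * X)) = Real.exp X := by
        rw [← Real.exp_add]
        congr 1
        ring
      have h4 := mul_le_mul_of_nonneg_right (Nat.le_ceil (Real.exp (4 * X)))
        (Real.exp_pos (-(3 * X))).le
      linarith))
  set RE : ℝ := (⌈Real.exp (4 * X)⌉₊ : ℝ) with hRE
  have hRE0 : 0 < RE := by rw [hRE]; exact_mod_cast Nat.ceil_pos.2 (by positivity)
  have hE0 : 0 ≤ rE := le_trans (by positivity) hE1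
  set w : ℝ := ⌊X ^ 6⌋₊ * (2 * (RE * σ)) with hw
  have hw0 : 0 < w := by positivity
  obtain ⟨rD, hD1, hD2, cD⟩ := hB.reg2 hw0
  have hD0 : 0 ≤ rD := hw0.le.trans hD1
  have top : σ + ⌈X⌉₊ * (rD + rD) ≤ ρ := by
    have h3 := mul_le_mul_of_nonneg_right hW hσ.le
    have h5 : Real.exp (10 * X) * σ = ρ := by
      rw [hσdef, mul_left_comm, ← Real.exp_add, add_neg_cancel, Real.exp_zero, mul_one]
    rw [h5] at h3
    push_cast at h3
    refine le_trans ?_ h3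
    have h4 : (⌈X⌉₊ : ℝ) * (rD + rD) ≤ ⌈X⌉₊ * (2 * ((6 * D + 2) * w)) := by
      gcongr
      linarith
    refine (add_le_add_right h4 σ).trans (le_of_eq ?_)
    rw [hw]
    ring
  have hrD : rD ≤ ρ := by nlinarith
  obtain ⟨r, θ, hr, h⟩ := apa_z A1 A2 S (bl rD) (bl (rD + w)) (bl rE) (bl σ) U U2
    (ε / (16 * ⌈X⌉₊)) (7 * Real.exp (-(3 * X))) (Real.exp X) ⌈X⌉₊ ⌈X ^ 4⌉₊ ⌊X ^ 6⌋₊ h1 h2
    ⟨0, hB.zero_mem hD0⟩ ⟨0, hB.zero_mem hE0⟩ (hB.zero_mem hσ.le)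
    (fun a ha t ht => m2 a ha t (((hB.mem _ _).1 ht).trans hrD))
    (fun a ha a' ha' x hx d d' hd => by
      rw [add_assoc (a + a')]
      refine m1 a ha a' ha' _ (le_trans ((hB.sz.add _ _).trans ?_) top)
      exact add_le_add ((hB.mem _ _).1 hx) (sz_sum_le hB.sz fun i => (hB.sz.sub _ _).trans
        (add_le_add ((hB.mem _ _).1 (hd i).1) ((hB.mem _ _).1 (hd i).2))))
    hU hU2
    (fun x hx e he => by
      refine (hB.mem _ _).2 ((hB.sz.sub _ _).trans (add_le_add ((hB.mem _ _).1 hx) ?_))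
      refine (sz_sum_le hB.sz fun i => (hB.mem _ _).1 (he i)).trans ?_
      rw [hw]
      gcongr
      linarith)
    cD (fun x hx => hB.out hσ.le ((hB.mem _ _).1 hx) cE) (by positivity) (by positivity)
    ((div_le_self hε.le (by linarith)).trans hε1)
    (Apb.num1 hε hε1 hX1 hX hk1 hk' (Nat.le_ceil _))
    (Apb.num2 hX (Nat.ceil_lt_add_one (by positivity)).le (Nat.lt_floor_add_one _))
  refine ⟨r, θ, le_trans (by exact_mod_cast hr) hj, fun x hx hi =>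
    (h x ((hB.mem _ _).2 hx) fun i => ?_).trans ?_⟩
  · obtain ⟨m, hm⟩ := hi i
    exact ⟨m, by linarith⟩
  have h3 := Apb.num3 hX2 hε hX hk hj
  have h4 : 8 * (⌈X⌉₊ : ℝ) * (ε / (16 * ⌈X⌉₊)) = ε / 2 := by
    field_simp
    norm_num
  linarith

/-- almost periodicity on lattice balls of a norm -/
theorem apb_ln (ε : ℝ) (hε : 0 < ε) : ∃ X0 : ℝ, ∀ X : ℝ, X0 ≤ X →
    ∀ (n W : Type) [Fintype n] [DecidableEq n] [NormedAddCommGroup W] [NormedSpace ℝ W]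
      (T : (n → ℝ) →ₗ[ℝ] W) (ρ : ℝ) (A1 A2 S U U2 : Finset (n → ℤ)), Function.Injective T →
      (Fintype.card n : ℝ) ≤ Real.exp X → 0 < ρ →
      A1.Nonempty → A2.Nonempty → (#U : ℝ) ≤ Real.exp X * #A1 → (#U2 : ℝ) ≤ Real.exp X * #A2 →
      (∀ a ∈ A2, ∀ x, ‖T (zc x)‖ ≤ ρ → a + x ∈ U2) →
      (∀ a ∈ A1, ∀ a' ∈ A2, ∀ x, ‖T (zc x)‖ ≤ ρ → a + a' + x ∈ U) →
      ∃ (r : ℕ) (θ : Fin r → n → ℝ), (r : ℝ) ≤ X ^ 6 ∧
        ∀ x, ‖T (zc x)‖ ≤ ρ * Real.exp (-(10 * X)) →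
        (∀ i, ∃ m : ℤ, |θ i ⬝ᵥ zc x - m| ≤ Real.exp (-(3 * X))) →
        |psi A1 A2 S x - psi A1 A2 S 0| ≤ ε := by
  obtain ⟨X0, h⟩ := apb_bl ε hε
  exact ⟨X0, fun X hX n W _ _ _ _ T ρ A1 A2 S U U2 hT hn =>
    h X hX n (ln T) (lb T) _ ρ A1 A2 S U U2 (bl_lb T hT) hn⟩

end

end Vale.Agent.P057FT
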