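import Vale.Agent.P057Z.Fr.Defs
import Vale.Agent.P057HU.Loc
import Mathlib.MeasureTheory.Covering.BesicovitchVectorSpace

/-! Balls of a size function: doubling, regular radii, localisation. -/

set_option linter.all false

open Finset
open scoped BigOperators

namespace Vale.Agent.P057FT

open Vale.Agent.P057Z.Fr Vale.Agent.P057HU

noncomputable section

/-- a size function with finite balls that grow by at most `5 ^ D` under doubling -/
structure Bl {G : Type} [AddCommGroup G] (N : G → ℝ) (bl : ℝ → Finset G) (D : ℕ) : Prop where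
  sz : Sz N
  mem : ∀ r x, x ∈ bl r ↔ N x ≤ r
  dbl : ∀ r, 0 < r → (bl (2 * r)).card ≤ 5 ^ D * (bl r).card

section abstract

variable {G : Type} [AddCommGroup G] {N : G → ℝ} {bl : ℝ → Finset G} {D : ℕ}

theorem sz_sum (hN : Sz N) {α : Type} (s : Finset α) (u : α → G) :
    N (∑ i ∈ s, u i) ≤ ∑ i ∈ s, N (u i) := by
  classical
  induction s using Finset.induction_on with
  | empty => simp [hN.zero]
  | insert a s ha ih =>
    rw [sum_insert ha, sum_insert ha]
    exact (hN.add _ _).trans (by linarith)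

theorem sz_sum_le (hN : Sz N) {j : ℕ} {u : Fin j → G} {r : ℝ} (h : ∀ i, N (u i) ≤ r) :
    N (∑ i, u i) ≤ j * r := by
  refine (sz_sum hN _ _).trans ((sum_le_card_nsmul _ _ r fun i _ => h i).trans_eq ?_)
  simp

/-- a maximal separated subset covers -/
theorem cover_fin (hN : Sz N) (Z : Finset G) {r : ℝ} (hr : 0 ≤ r) :
    ∃ L ⊆ Z, (∀ x ∈ L, ∀ y ∈ L, x ≠ y → r < N (x - y)) ∧ ∀ z ∈ Z, ∃ l ∈ L, N (z - l) ≤ r := by
  classical
  set F : Finset (Finset G) := Z.powerset.filter fun s =>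
    ∀ x ∈ s, ∀ y ∈ s, x ≠ y → r < N (x - y) with hF
  have hne : F.Nonempty := ⟨∅, by simp [hF]⟩
  obtain ⟨L, hL, hmax⟩ := exists_max_image F (fun s => s.card) hne
  simp only [hF, mem_filter, mem_powerset] at hL
  refine ⟨L, hL.1, hL.2, fun z hz => ?_⟩
  by_contra hcon
  push Not at hcon
  have hzL : z ∉ L := fun hzl => by
    have := hcon z hzl
    rw [sub_self, hN.zero] at this
    linarith
  have hin : insert z L ∈ F := by
    simp only [hF, mem_filter, mem_powerset, mem_insert]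
    refine ⟨insert_subset hz hL.1, ?_⟩
    rintro x (rfl | hx) y (rfl | hy) hxy
    · exact absurd rfl hxy
    · exact hcon y hy
    · rw [hN.symm]; exact hcon x hx
    · exact hL.2 x hx y hy hxy
  have := hmax _ hin
  rw [card_insert_of_notMem hzL] at this
  omega

theorem bl_of_few (hN : Sz N) (hm : ∀ r x, x ∈ bl r ↔ N x ≤ r)
    (h : ∀ r, 0 < r → ∀ s : Finset G, (∀ x ∈ s, N x ≤ 2 * r) →
      (∀ x ∈ s, ∀ y ∈ s, x ≠ y → r < N (x - y)) → s.card ≤ 5 ^ D) : Bl N bl D := by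
  classical
  refine ⟨hN, hm, fun r hr => ?_⟩
  obtain ⟨L, hL, hs, hc⟩ := cover_fin hN (bl (2 * r)) hr.le
  have h1 := h r hr L (fun x hx => (hm _ _).1 (hL hx)) hs
  have h2 : bl (2 * r) ⊆ L.biUnion fun l => (bl r).image fun u => u + l := by
    intro z hz
    obtain ⟨l, hl, hzl⟩ := hc z hz
    exact mem_biUnion.2 ⟨l, hl, mem_image.2 ⟨z - l, (hm _ _).2 hzl, by abel⟩⟩
  refine (card_le_card h2).trans (card_biUnion_le.trans ?_)
  refine (sum_le_card_nsmul _ _ (bl r).card fun l _ => card_image_le).trans ?_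
  rw [smul_eq_mul]
  exact Nat.mul_le_mul_right _ h1

theorem Bl.zero_mem (h : Bl N bl D) {r : ℝ} (hr : 0 ≤ r) : (0 : G) ∈ bl r :=
  (h.mem _ _).2 (by rw [h.sz.zero]; exact hr)

theorem Bl.card_pos (h : Bl N bl D) {r : ℝ} (hr : 0 ≤ r) : (0 : ℝ) < (bl r).card := by
  exact_mod_cast Finset.card_pos.2 ⟨0, h.zero_mem hr⟩

theorem Bl.mono (h : Bl N bl D) {r s : ℝ} (hrs : r ≤ s) : bl r ⊆ bl s :=
  fun x hx => (h.mem _ _).2 (((h.mem _ _).1 hx).trans hrs)

theorem Bl.card_mono (h : Bl N bl D) {r s : ℝ} (hrs : r ≤ s) :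
    ((bl r).card : ℝ) ≤ (bl s).card := by
  exact_mod_cast card_le_card (h.mono hrs)

theorem Bl.dim_mono (h : Bl N bl D) {D' : ℕ} (hD : D ≤ D') : Bl N bl D' :=
  ⟨h.sz, h.mem, fun r hr => (h.dbl r hr).trans
    (Nat.mul_le_mul_right _ (Nat.pow_le_pow_right (by norm_num) hD))⟩

theorem pigeon (a : ℕ → ℝ) (c : ℝ) (hc : 0 ≤ c) (R : ℕ) (h : a R < c ^ R * a 0) :
    ∃ i < R, a (i + 1) ≤ c * a i := by
  by_contra h0
  push Not at h0
  have h1 : ∀ i ≤ R, c ^ i * a 0 ≤ a i := fun i hi => by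
    induction i with
    | zero => simp
    | succ i ih =>
      rw [pow_succ', mul_assoc]
      exact (mul_le_mul_of_nonneg_left (ih (by omega)) hc).trans (h0 i (by omega)).le
  exact absurd h (not_lt.2 (h1 R le_rfl))

/-- a regular radius between `J * δ` and `2 * J * δ` -/
theorem Bl.reg (h : Bl N bl D) {δ c : ℝ} {J : ℕ} (hδ : 0 < δ) (hJ : 1 ≤ J) (hc : 0 ≤ c)
    (hcJ : (5 : ℝ) ^ D < c ^ J) :
    ∃ r, J * δ ≤ r ∧ r + δ ≤ 2 * (J * δ) ∧ ((bl (r + δ)).card : ℝ) ≤ c * (bl r).card := by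
  have hJ' : (1 : ℝ) ≤ J := by exact_mod_cast hJ
  have hp : 0 < J * δ := by positivity
  obtain ⟨i, hi, h1⟩ := pigeon (fun i => ((bl (J * δ + i * δ)).card : ℝ)) c hc J (by
    have h2 : ((bl (2 * (J * δ))).card : ℝ) ≤ 5 ^ D * (bl (J * δ)).card := by
      exact_mod_cast h.dbl _ hp
    simp only [Nat.cast_zero, zero_mul, add_zero]
    rw [← two_mul]
    exact h2.trans_lt (mul_lt_mul_of_pos_right hcJ (h.card_pos hp.le)))
  have hi' : (i : ℝ) + 1 ≤ J := by exact_mod_cast hi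
  refine ⟨J * δ + i * δ, ?_, ?_, ?_⟩
  · have : 0 ≤ (i : ℝ) * δ := by positivity
    linarith
  · nlinarith
  · simp only [Nat.cast_add, Nat.cast_one, add_mul, one_mul, ← add_assoc] at h1
    exact h1

theorem five_lt (D : ℕ) : (5 : ℝ) ^ D < 2 ^ (3 * D + 1) := by
  rw [pow_succ, pow_mul]
  have h1 : (5 : ℝ) ^ D ≤ (2 ^ 3) ^ D := pow_le_pow_left₀ (by norm_num) (by norm_num) D
  have h2 : (0 : ℝ) < (2 ^ 3) ^ D := by positivity
  linarith

/-- a radius at which the ball at most doubles -/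
theorem Bl.reg2 (h : Bl N bl D) {δ : ℝ} (hδ : 0 < δ) :
    ∃ r, δ ≤ r ∧ r + δ ≤ (6 * D + 2) * δ ∧ ((bl (r + δ)).card : ℝ) ≤ 2 * (bl r).card := by
  obtain ⟨r, h1, h2, h3⟩ := h.reg (J := 3 * D + 1) hδ (by omega) (by norm_num) (five_lt D)
  push_cast at h1 h2
  have : (0 : ℝ) ≤ D := Nat.cast_nonneg D
  exact ⟨r, by nlinarith, by linarith, h3⟩

open Classical in
/-- localisation of a set to a small ball -/
theorem Bl.loc (h : Bl N bl D) (S X : Finset G) (r : ℝ)
    (hX : ∀ s ∈ S, ∀ u, N u ≤ r → s + u ∈ X) :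
    ∃ x, (S.card : ℝ) * (bl r).card ≤ X.card * (S.filter fun s => N (s - x) ≤ r).card := by
  obtain ⟨x, -, hx⟩ := exists_max_image (insert 0 X)
    (fun x => (S.filter fun s => N (s - x) ≤ r).card) ⟨0, mem_insert_self _ _⟩
  refine ⟨x, ?_⟩
  have h1 := card_le_mul_card_image_of_maps_to (s := S ×ˢ bl r) (t := X) (f := fun p => p.1 + p.2)
    (fun p hp => hX _ (mem_product.1 hp).1 _ ((h.mem _ _).1 (mem_product.1 hp).2))
    (S.filter fun s => N (s - x) ≤ r).card (fun y hy => by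
      refine le_trans ?_ (hx y (mem_insert_of_mem hy))
      refine card_le_card_of_injOn (fun p => p.1) (fun p hp => ?_) (fun p hp q hq e => ?_)
      · simp only [coe_filter, mem_product, Set.mem_ofPred_eq] at hp ⊢
        refine ⟨hp.1.1, ?_⟩
        rw [← hp.2, show p.1 - (p.1 + p.2) = -p.2 by abel, h.sz.neg]
        exact (h.mem _ _).1 hp.1.2
      · simp only [coe_filter, mem_product, Set.mem_ofPred_eq] at hp hq
        have e' : p.1 = q.1 := e
        refine Prod.ext e' ?_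
        have := hp.2.trans hq.2.symm
        rw [e'] at this
        exact add_left_cancel this)
  rw [card_product, mul_comm (S.filter _).card] at h1
  exact_mod_cast h1

open Classical in
/-- the translate of a ball -/
def tr (bl : ℝ → Finset G) (x : G) (r : ℝ) : Finset G := (bl r).image fun u => u + x

theorem Bl.mem_tr (h : Bl N bl D) {x y : G} {r : ℝ} : y ∈ tr bl x r ↔ N (y - x) ≤ r := by
  unfold tr
  simp only [mem_image]
  constructor
  · rintro ⟨u, hu, rfl⟩
    rw [add_sub_cancel_right]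
    exact (h.mem _ _).1 hu
  · intro hy
    exact ⟨y - x, (h.mem _ _).2 hy, by abel⟩

theorem card_tr (bl : ℝ → Finset G) (x : G) (r : ℝ) : (tr bl x r).card = (bl r).card := by
  classical
  unfold tr
  convert card_image_of_injective (bl r) (add_left_injective x)

/-- a ball is nearly invariant under short shifts -/
theorem Bl.out [DecidableEq G] (h : Bl N bl D) {r δ κ : ℝ} {x : G} (hδ : 0 ≤ δ) (hx : N x ≤ δ)
    (hc : ((bl (r + δ)).card : ℝ) ≤ (1 + κ) * (bl r).card) :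
    (#{e ∈ bl r | e + x ∉ bl r} : ℝ) ≤ κ * #(bl r) := by
  have h1 : #{e ∈ bl r | e + x ∉ bl r} ≤ #(bl (r + δ) \ bl r) :=
    card_le_card_of_injOn (· + x) (fun e he => by
      have he' := mem_filter.1 (mem_coe.1 he)
      refine mem_coe.2 (mem_sdiff.2 ⟨(h.mem _ _).2 ?_, he'.2⟩)
      exact (h.sz.add _ _).trans (add_le_add ((h.mem _ _).1 he'.1) hx))
      fun a _ b _ e => add_right_cancel e
  have h2 := card_sdiff_add_card_eq_card (h.mono (show r ≤ r + δ by linarith))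
  have h3 : (#{e ∈ bl r | e + x ∉ bl r} : ℝ) + #(bl r) ≤ #(bl (r + δ)) := by
    exact_mod_cast (by omega)
  linarith

end abstract

section pack

variable {n W : Type} [Fintype n] [NormedAddCommGroup W] [NormedSpace ℝ W]

theorem pack {α : Type} (T : (n → ℝ) →ₗ[ℝ] W) (s : Finset α) (v : α → n → ℝ) {r : ℝ} (hr : 0 < r)
    (h1 : ∀ x ∈ s, ‖T (v x)‖ ≤ 2 * r) (h2 : ∀ x ∈ s, ∀ y ∈ s, x ≠ y → r ≤ ‖T (v x - v y)‖) :
    s.card ≤ 5 ^ Fintype.card n := by
  classical
  let w : α → LinearMap.range T := fun x => r⁻¹ • ⟨T (v x), LinearMap.mem_range_self T _⟩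
  have hw : ∀ x y, ‖w x - w y‖ = r⁻¹ * ‖T (v x - v y)‖ := by
    intro x y
    simp only [w]
    rw [← smul_sub, norm_smul, Real.norm_of_nonneg (inv_pos.2 hr).le, map_sub]
    rfl
  have hs : ∀ x ∈ s, ∀ y ∈ s, x ≠ y → 1 ≤ ‖w x - w y‖ := by
    intro x hx y hy hxy
    rw [hw, ← div_eq_inv_mul, le_div_iff₀ hr, one_mul]
    exact h2 x hx y hy hxy
  have hinj : Set.InjOn w s := by
    intro x hx y hy e
    by_contra hxy
    have := hs x hx y hy hxy
    rw [e, sub_self, norm_zero] at this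
    linarith
  rw [← card_image_of_injOn hinj]
  refine (Besicovitch.card_le_of_separated (s.image w) ?_ ?_).trans
    (Nat.pow_le_pow_right (by norm_num) ?_)
  · intro c hc
    obtain ⟨x, hx, rfl⟩ := mem_image.1 hc
    simp only [w]
    rw [norm_smul, Real.norm_of_nonneg (inv_pos.2 hr).le, ← div_eq_inv_mul, div_le_iff₀ hr]
    exact h1 x hx
  · intro c hc d hd hcd
    obtain ⟨x, hx, rfl⟩ := mem_image.1 hc
    obtain ⟨y, hy, rfl⟩ := mem_image.1 hd
    exact hs x hx y hy fun e => hcd (by rw [e])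
  · exact (LinearMap.finrank_range_le T).trans (Module.finrank_fintype_fun_eq_card ℝ).le

/-- the size of a lattice vector -/
def ln (T : (n → ℝ) →ₗ[ℝ] W) (x : n → ℤ) : ℝ := ‖T (zc x)‖

open Classical in
/-- the lattice ball -/
def lb (T : (n → ℝ) →ₗ[ℝ] W) (r : ℝ) : Finset (n → ℤ) :=
  if h : {x : n → ℤ | ‖T (zc x)‖ ≤ r}.Finite then h.toFinset else ∅

theorem sz_ln (T : (n → ℝ) →ₗ[ℝ] W) : Sz (ln T) := by
  refine ⟨fun x y => ?_, fun x => ?_, ?_⟩
  · unfold ln
    rw [map_add, map_add]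
    exact norm_add_le _ _
  · unfold ln
    rw [map_neg, map_neg, norm_neg]
  · unfold ln
    rw [map_zero, map_zero, norm_zero]

theorem bl_lb (T : (n → ℝ) →ₗ[ℝ] W) (hT : Function.Injective T) :
    Bl (ln T) (lb T) (Fintype.card n) := by
  refine bl_of_few (sz_ln T) (fun r x => ?_) fun r hr s h1 h2 => ?_
  · unfold lb
    rw [dif_pos (finite_ball T hT r), Set.Finite.mem_toFinset]
    rfl
  · refine pack T s (fun x => zc x) hr h1 fun x hx y hy hxy => ?_
    rw [← map_sub]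
    exact (h2 x hx y hy hxy).le

end pack

end

end Vale.Agent.P057FT
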