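import Vale.Agent.P057FT.Core

/-! A Bohr body of small rank in 2S - 2S, and the chart on it. -/

set_option linter.all false

open Finset
open scoped BigOperators

namespace Vale.Agent.P057FT

open Vale.Agent.P057Z Vale.Agent.P057Z.Fr Vale.Agent.P057HU

noncomputable section

theorem psi_zero {G : Type} [AddCommGroup G] [DecidableEq G] {A1 A2 : Finset G}
    (h1 : A1.Nonempty) (h2 : A2.Nonempty) :
    Km.psi A1 A2 ((A1 ×ˢ A2).image fun p => p.1 + p.2) 0 = 1 := by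
  unfold Km.psi
  rw [filter_true_of_mem fun p hp => by
    rw [add_zero]
    exact mem_image_of_mem (fun p : G × G => p.1 + p.2) hp, card_product]
  have a1 : (0 : ℝ) < #A1 := by exact_mod_cast h1.card_pos
  have a2 : (0 : ℝ) < #A2 := by exact_mod_cast h2.card_pos
  push_cast
  exact div_self (by positivity)

theorem psi_pos {G : Type} [AddCommGroup G] [DecidableEq G] {A1 A2 V : Finset G} {x : G}
    (h : 0 < Km.psi A1 A2 V x) : ∃ a ∈ A1, ∃ a' ∈ A2, a + a' + x ∈ V := by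
  by_contra hc
  unfold Km.psi at h
  rw [filter_false_of_mem fun p hp hw =>
    hc ⟨p.1, (mem_product.1 hp).1, p.2, (mem_product.1 hp).2, hw⟩] at h
  simp at h

/-- `x` is a sum of two members of `S` minus a sum of two members of `S` -/
def Rep {G : Type} [AddCommGroup G] (S : Finset G) (x : G) : Prop :=
  ∃ s1 ∈ S, ∃ s2 ∈ S, ∃ s3 ∈ S, ∃ s4 ∈ S, x = s1 + s2 - s3 - s4

/-- the lemma of Bogolyubov on balls -/
theorem bog : ∃ X0 : ℝ, ∀ X : ℝ, X0 ≤ X →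
    ∀ (n : Type) [Fintype n] [DecidableEq n] (N : (n → ℤ) → ℝ) (bl : ℝ → Finset (n → ℤ)) (D : ℕ)
      (S : Finset (n → ℤ)) (x0 : n → ℤ) (R δ : ℝ), Bl N bl D → (D : ℝ) ≤ Real.exp X → 0 ≤ R →
      0 < δ → (∀ s ∈ S, N (s - x0) ≤ R) → 2 * (#(bl (R + δ)) : ℝ) ≤ Real.exp X * #S →
      ∃ (r : ℕ) (θ : Fin r → n → ℝ), (r : ℝ) ≤ X ^ 6 ∧ ∀ x, N x ≤ δ * Real.exp (-(12 * X)) →
        (∀ i, ∃ m : ℤ, |θ i ⬝ᵥ zc x - m| ≤ Real.exp (-(3 * X))) → Rep S x := by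
  classical
  obtain ⟨X0, hA⟩ := apb_bl (1 / 2) (by norm_num)
  refine ⟨max X0 10, fun X hX n _ _ N bl D S x0 R δ hB hD hR hδ hS hc => ?_⟩
  have hX0 : 10 ≤ X := (le_max_right _ _).trans hX
  have hD0 : (0 : ℝ) ≤ D := Nat.cast_nonneg D
  set ρ := δ / (6 * D + 2) with hρ
  have hρ0 : 0 < ρ := by positivity
  obtain ⟨R', h1, h2, h3⟩ := hB.reg2 hρ0
  have h4 : R' + ρ ≤ δ := h2.trans_eq (by rw [hρ]; field_simp)
  have pe := Real.exp_pos X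
  have p1 := hB.card_pos (show 0 ≤ R + δ by linarith)
  have p2 := hB.card_pos (show 0 ≤ R' by linarith)
  have pS : (0 : ℝ) < #S := num_pos (by linarith) (Nat.cast_nonneg _) hc
  obtain ⟨x', hx'⟩ := hB.loc S (tr bl x0 (R + δ)) R' fun s hs v hv => hB.mem_tr.2 (by
    rw [add_sub_right_comm]
    exact (hB.sz.add _ _).trans (add_le_add (hS s hs) (by linarith)))
  rw [card_tr] at hx'
  set S' := S.filter fun s => N (s - x') ≤ R' with hS'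
  have k1 : 2 * (#(bl R') : ℝ) ≤ Real.exp X * #S' := by
    refine le_of_mul_le_mul_left ?_ pS
    have a1 := mul_le_mul_of_nonneg_right hc (Nat.cast_nonneg (α := ℝ) #S')
    linarith
  have n1 : S.Nonempty := by rw [← card_pos]; exact_mod_cast pS
  have n2 : S'.Nonempty := by
    rw [← card_pos]
    exact_mod_cast num_pos (by linarith) (Nat.cast_nonneg _) k1
  have m2 : ∀ a ∈ S'.image (fun s => -s), ∀ x, N x ≤ ρ → N (a + x - -x') ≤ R' + ρ := by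
    intro a ha x hx
    obtain ⟨s, hs, rfl⟩ := mem_image.1 ha
    rw [show -s + x - -x' = x - (s - x') by abel, add_comm]
    exact (hB.sz.sub _ _).trans (add_le_add hx (mem_filter.1 hs).2)
  obtain ⟨r, θ, hr, hθ⟩ := hA X ((le_max_left _ _).trans hX) n N bl D ρ S (S'.image fun s => -s)
    ((S ×ˢ S'.image fun s => -s).image fun p => p.1 + p.2) (tr bl (x0 + -x') (R + δ))
    (tr bl (-x') (R' + ρ)) hB hD hρ0 n1 (n2.image _) (by rw [card_tr]; linarith)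
    (by rw [card_tr, card_image_of_injective _ neg_injective]; linarith)
    (fun a ha x hx => hB.mem_tr.2 (m2 a ha x hx))
    (fun a ha a' ha' x hx => hB.mem_tr.2 (by
      rw [add_assoc a, add_sub_add_comm]
      exact (hB.sz.add _ _).trans (add_le_add (hS a ha) ((m2 a' ha' x hx).trans h4))))
  refine ⟨r, θ, hr, fun x hx hi => ?_⟩
  have a1 := hθ x (hx.trans (by
    rw [hρ, div_mul_eq_mul_div, le_div_iff₀ (by positivity), mul_assoc]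
    refine mul_le_mul_of_nonneg_left ?_ hδ.le
    have e : Real.exp (-(10 * X)) = Real.exp (-(12 * X)) * (Real.exp X * Real.exp X) := by
      simp only [← Real.exp_add]
      congr 1
      ring
    rw [e]
    refine mul_le_mul_of_nonneg_left ?_ (Real.exp_pos _).le
    have := Real.add_one_le_exp X
    nlinarith)) hi
  rw [psi_zero n1 (n2.image _)] at a1
  obtain ⟨a, ha, a', ha', hw⟩ := psi_pos (x := x) (by linarith [(abs_le.1 a1).1] :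
    0 < Km.psi S (S'.image fun s => -s)
      ((S ×ˢ S'.image fun s => -s).image fun p => p.1 + p.2) x)
  obtain ⟨p, hp, e⟩ := mem_image.1 hw
  obtain ⟨s, hs, rfl⟩ := mem_image.1 ha'
  obtain ⟨s', hs', e'⟩ := mem_image.1 (mem_product.1 hp).2
  refine ⟨p.1, (mem_product.1 hp).1, s, (mem_filter.1 hs).1, a, ha, s', (mem_filter.1 hs').1, ?_⟩
  rw [← e'] at e
  have e2 : x = p.1 + -s' - (a + -s) := by rw [e]; abel
  rw [e2]
  abel

theorem rel6 {G Y : Type} [AddCommGroup G] [AddCommGroup Y] {g : G → Y} {S : Finset G}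
    {a1 a2 a3 a4 a5 a6 b1 b2 b3 b4 b5 b6 : G}
    (ha : a1 ∈ S ∧ a2 ∈ S ∧ a3 ∈ S ∧ a4 ∈ S ∧ a5 ∈ S ∧ a6 ∈ S)
    (hb : b1 ∈ S ∧ b2 ∈ S ∧ b3 ∈ S ∧ b4 ∈ S ∧ b5 ∈ S ∧ b6 ∈ S)
    (h : a1 + a2 + a3 + a4 + a5 + a6 = b1 + b2 + b3 + b4 + b5 + b6) :
    g a1 + g a2 + g a3 + g a4 + g a5 + g a6 - (g b1 + g b2 + g b3 + g b4 + g b5 + g b6) ∈
      Rel g S 6 := by
  refine ⟨![a1, a2, a3, a4, a5, a6], ![b1, b2, b3, b4, b5, b6], fun i => ?_, fun i => ?_, ?_, ?_⟩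
  · fin_cases i
    exacts [ha.1, ha.2.1, ha.2.2.1, ha.2.2.2.1, ha.2.2.2.2.1, ha.2.2.2.2.2]
  · fin_cases i
    exacts [hb.1, hb.2.1, hb.2.2.1, hb.2.2.2.1, hb.2.2.2.2.1, hb.2.2.2.2.2]
  · simpa [Fin.sum_univ_six] using h
  · simp [Fin.sum_univ_six]

variable {κ W' : Type} [Fintype κ] [NormedAddCommGroup W'] [NormedSpace ℝ W']
  {T' : (κ → ℝ) →ₗ[ℝ] W'}

/-- stability of additive maps from a lattice ball to a normed torus -/
theorem hu_tor (hT' : Function.Injective T') {n W : Type} [Fintype n] [NormedAddCommGroup W]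
    [NormedSpace ℝ W] (T : (n → ℝ) →ₗ[ℝ] W) (hT : Function.Injective T) (D : ℕ)
    (hD : Fintype.card n ≤ D) (r ε : ℝ) (hε : 0 ≤ ε) (hr : 0 ≤ r)
    (hΓ : ∀ k : κ → ℤ, ‖T' (zc k)‖ ≤ 12 * ((D + 1) * ε) → k = 0) (Φ : (n → ℤ) → κ → ℝ)
    (h : ∀ x y, ‖T (zc x)‖ ≤ 2 * D * r → ‖T (zc y)‖ ≤ 2 * D * r →
      ‖T (zc (x + y))‖ ≤ 2 * D * r → Cz T' ε (Φ (x + y) - Φ x - Φ y)) :
    ∃ F : (n → ℝ) →ₗ[ℝ] (κ → ℝ), ∀ x, ‖T (zc x)‖ ≤ r →
      Cz T' ((2 * D + 1) * ε) (Φ x - F (zc x)) := by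
  haveI : CompleteSpace (LinearMap.range T') := FiniteDimensional.complete ℝ _
  let e : (κ → ℝ) ≃ₗ[ℝ] LinearMap.range T' := LinearEquiv.ofInjective T' hT'
  have he : ∀ y, ‖e y‖ = ‖T' y‖ := fun y => rfl
  let Γ : AddSubgroup (LinearMap.range T') := (e.toLinearMap.toAddMonoidHom.comp zc).range
  have hc : ∀ s y, Cl Γ s (e y) ↔ Cz T' s y := by
    intro s y
    constructor
    · rintro ⟨_, ⟨k, rfl⟩, hk⟩
      refine ⟨k, ?_⟩
      rw [← he, map_sub]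
      exact hk
    · rintro ⟨k, hk⟩
      refine ⟨_, ⟨k, rfl⟩, ?_⟩
      rw [← he, map_sub] at hk
      exact hk
  obtain ⟨F, hF⟩ := hu_lattice T hT D hD r ε hε hr Γ (by
      rintro _ ⟨k, rfl⟩ hk
      rw [hΓ k hk, map_zero]) (fun x => e (Φ x)) fun x y hx hy hxy => by
    rw [← map_sub, ← map_sub, hc]
    exact h x y hx hy hxy
  refine ⟨e.symm.toLinearMap.comp F, fun x hx => (hc _ _).1 ?_⟩
  rw [map_sub]
  simpa using hF x hx

/-- the norm of the extended lattice -/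
def ext {n W : Type} [Fintype n] [NormedAddCommGroup W] [NormedSpace ℝ W] (T : (n → ℝ) →ₗ[ℝ] W)
    {r : ℕ} (θ : Fin r → n → ℝ) (a τ : ℝ) : (n ⊕ Fin r → ℝ) →ₗ[ℝ] W × (Fin r → ℝ) where
  toFun y := (a⁻¹ • T fun i => y (Sum.inl i),
    fun j => τ⁻¹ * (θ j ⬝ᵥ (fun i => y (Sum.inl i)) - y (Sum.inr j)))
  map_add' x y := by
    refine Prod.ext ?_ (funext fun j => ?_)
    · show a⁻¹ • T ((fun i => x (Sum.inl i)) + fun i => y (Sum.inl i)) = _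
      rw [map_add, smul_add]
      rfl
    · show τ⁻¹ * (θ j ⬝ᵥ ((fun i => x (Sum.inl i)) + fun i => y (Sum.inl i)) -
        (x (Sum.inr j) + y (Sum.inr j))) = τ⁻¹ * _ + τ⁻¹ * _
      rw [dotProduct_add]
      ring
  map_smul' c x := by
    refine Prod.ext ?_ (funext fun j => ?_)
    · show a⁻¹ • T (c • fun i => x (Sum.inl i)) = c • a⁻¹ • _
      rw [map_smul, smul_comm]
    · show τ⁻¹ * (θ j ⬝ᵥ (c • fun i => x (Sum.inl i)) - c * x (Sum.inr j)) = c * (τ⁻¹ * _)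
      rw [dotProduct_smul, smul_eq_mul]
      ring

theorem ext_le {n W : Type} [Fintype n] [NormedAddCommGroup W] [NormedSpace ℝ W]
    (T : (n → ℝ) →ₗ[ℝ] W) {r : ℕ} (θ : Fin r → n → ℝ) {a τ c : ℝ} (ha : 0 < a) (hτ : 0 < τ)
    (hc : 0 ≤ c) (y : n ⊕ Fin r → ℝ) : ‖ext T θ a τ y‖ ≤ c ↔ ‖T fun i => y (Sum.inl i)‖ ≤ a * c ∧
      ∀ j, |θ j ⬝ᵥ (fun i => y (Sum.inl i)) - y (Sum.inr j)| ≤ τ * c := by
  rw [norm_prod_le_iff, pi_norm_le_iff_of_nonneg hc]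
  refine and_congr ?_ (forall_congr' fun j => ?_)
  · show ‖a⁻¹ • _‖ ≤ c ↔ _
    rw [norm_smul, norm_inv, Real.norm_of_nonneg ha.le, inv_mul_le_iff₀ ha]
  · show |τ⁻¹ * _| ≤ c ↔ _
    rw [abs_mul, abs_inv, abs_of_pos hτ, inv_mul_le_iff₀ hτ]

theorem ext_inj {n W : Type} [Fintype n] [NormedAddCommGroup W] [NormedSpace ℝ W]
    {T : (n → ℝ) →ₗ[ℝ] W} (hT : Function.Injective T) {r : ℕ} (θ : Fin r → n → ℝ) {a τ : ℝ}
    (ha : 0 < a) (hτ : 0 < τ) : Function.Injective (ext T θ a τ) := by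
  refine (injective_iff_map_eq_zero _).2 fun y hy => ?_
  obtain ⟨h1, h2⟩ := (ext_le T θ ha hτ le_rfl y).1 (by rw [hy, norm_zero])
  rw [mul_zero, norm_le_zero_iff, ← map_zero T] at h1
  have h3 := hT h1
  funext i
  rcases i with i | j
  · exact congrFun h3 i
  · have h4 := h2 j
    rw [h3, dotProduct_zero, zero_sub, abs_neg, mul_zero, abs_nonpos_iff] at h4
    exact h4

/-- the chart on a Bohr body inside 2S - 2S -/
theorem chart (hT' : Function.Injective T') {n W : Type} [Fintype n] [NormedAddCommGroup W]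
    [NormedSpace ℝ W] {T : (n → ℝ) →ₗ[ℝ] W} (hT : Function.Injective T) {r : ℕ}
    (θ : Fin r → n → ℝ) {a τ ε : ℝ} (ha : 0 < a) (hτ : 0 < τ) (hε : 0 ≤ ε) (D : ℕ)
    (hD : Fintype.card n + r ≤ D) (g : (n → ℤ) → κ → ℝ) (S : Finset (n → ℤ))
    (hΓ : ∀ k : κ → ℤ, ‖T' (zc k)‖ ≤ 12 * ((D + 1) * ε) → k = 0)
    (hrel : ∀ z ∈ Rel g S 6, Cz T' ε z)
    (hB : ∀ x, ‖T (zc x)‖ ≤ a * (2 * D) → (∀ i, ∃ m : ℤ, |θ i ⬝ᵥ zc x - m| ≤ τ * (2 * D)) →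
      Rep S x) :
    ∃ (F1 : (n → ℝ) →ₗ[ℝ] (κ → ℝ)) (F2 : (Fin r → ℝ) →ₗ[ℝ] (κ → ℝ)),
      ∀ s1 ∈ S, ∀ s2 ∈ S, ∀ s3 ∈ S, ∀ s4 ∈ S, ∀ m : Fin r → ℤ,
        ‖T (zc (s1 + s2 - s3 - s4))‖ ≤ a → (∀ i, |θ i ⬝ᵥ zc (s1 + s2 - s3 - s4) - m i| ≤ τ) →
        Cz T' ((2 * D + 2) * ε)
          (g s1 + g s2 - g s3 - g s4 - F1 (zc (s1 + s2 - s3 - s4)) - F2 (zc m)) := by
  classical
  have h1 : ∀ x : n → ℤ, ∃ s1 s2 s3 s4 : n → ℤ, Rep S x →
      s1 ∈ S ∧ s2 ∈ S ∧ s3 ∈ S ∧ s4 ∈ S ∧ x = s1 + s2 - s3 - s4 := by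
    intro x
    by_cases hx : Rep S x
    · obtain ⟨s1, h1, s2, h2, s3, h3, s4, h4, h5⟩ := hx
      exact ⟨s1, s2, s3, s4, fun _ => ⟨h1, h2, h3, h4, h5⟩⟩
    · exact ⟨0, 0, 0, 0, fun hh => absurd hh hx⟩
  choose s1 s2 s3 s4 hs using h1
  have h2 : ∀ y : n ⊕ Fin r → ℤ, ‖ext T θ a τ (zc y)‖ ≤ 2 * D * 1 →
      Rep S fun i => y (Sum.inl i) := by
    intro y hy
    rw [mul_one, ext_le T θ ha hτ (by positivity)] at hy
    exact hB _ hy.1 fun i => ⟨y (Sum.inr i), hy.2 i⟩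
  obtain ⟨F, hF⟩ := hu_tor hT' (ext T θ a τ) (ext_inj hT θ ha hτ) D (by simpa using hD) 1 ε hε
    zero_le_one hΓ (fun y => g (s1 fun i => y (Sum.inl i)) + g (s2 fun i => y (Sum.inl i)) -
      g (s3 fun i => y (Sum.inl i)) - g (s4 fun i => y (Sum.inl i))) fun x y hx hy hxy => by
    obtain ⟨a1, a2, a3, a4, a5⟩ := hs _ (h2 x hx)
    obtain ⟨b1, b2, b3, b4, b5⟩ := hs _ (h2 y hy)
    obtain ⟨c1, c2, c3, c4, c5⟩ := hs _ (h2 _ hxy)
    refine (hrel _ (rel6 (g := g) ⟨c1, c2, a3, a4, b3, b4⟩ ⟨c3, c4, a1, a2, b1, b2⟩ ?_)).congr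
      (by abel)
    have e : (fun i => (x + y) (Sum.inl i)) =
        (fun i => x (Sum.inl i)) + fun i => y (Sum.inl i) := rfl
    linear_combination (exp := 1) e - c5 + a5 + b5
  refine ⟨F.comp ((LinearEquiv.sumArrowLequivProdArrow n (Fin r) ℝ ℝ).symm.toLinearMap.comp
      (LinearMap.inl ℝ _ _)),
    F.comp ((LinearEquiv.sumArrowLequivProdArrow n (Fin r) ℝ ℝ).symm.toLinearMap.comp
      (LinearMap.inr ℝ _ _)), fun t1 h1 t2 h2' t3 h3 t4 h4 m hx hm => ?_⟩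
  have h5 : ‖ext T θ a τ (zc (Sum.elim (t1 + t2 - t3 - t4) m))‖ ≤ 1 := by
    rw [ext_le T θ ha hτ zero_le_one, mul_one, mul_one]
    exact ⟨hx, hm⟩
  have h6 := hF _ h5
  obtain ⟨a1, a2, a3, a4, a5⟩ := hs (t1 + t2 - t3 - t4) ⟨t1, h1, t2, h2', t3, h3, t4, h4, rfl⟩
  have h7 := hrel _ (rel6 (g := g) ⟨h1, h2', a3, a4, h1, h1⟩ ⟨h3, h4, a1, a2, h1, h1⟩ (by
    linear_combination (exp := 1) a5))
  have e : (zc (Sum.elim (t1 + t2 - t3 - t4) m) : n ⊕ Fin r → ℝ) =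
      (LinearEquiv.sumArrowLequivProdArrow n (Fin r) ℝ ℝ).symm (zc (t1 + t2 - t3 - t4), 0) +
      (LinearEquiv.sumArrowLequivProdArrow n (Fin r) ℝ ℝ).symm (0, zc m) := by
    funext i
    rcases i with i | j <;> simp [zc]
  rw [e, map_add] at h6
  refine ((h6.add h7).congr ?_).mono (le_of_eq (by ring))
  simp only [Sum.elim_inl, LinearMap.comp_apply, LinearEquiv.coe_coe, LinearMap.inl_apply,
    LinearMap.inr_apply]
  abel

end

end Vale.Agent.P057FT
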