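import Vale.Agent.P057FT.Tor
import Vale.Agent.P057Z.Fr.List
import Vale.Agent.P057Z.Fr.Plu
import Vale.Agent.P057Z.Fr.Csl

/-! From a dense relation to a dense set on which all relations of six terms nearly hold. -/

set_option linter.all false

open Finset
open scoped BigOperators

namespace Vale.Agent.P057FT

open Vale.Agent.P057Z.Fr Vale.Agent.P057HU

noncomputable section

theorem le_exp_nat (c : ℝ) (m : ℕ) (h : c ≤ 2.7 ^ m) : c ≤ Real.exp m := by
  have h1 := Real.exp_one_gt_d9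
  rw [← mul_one (m : ℝ), Real.exp_nat_mul]
  exact h.trans (pow_le_pow_left₀ (by norm_num) (by linarith) m)

theorem num_M (L : ℝ) (hL : 1 ≤ L) :
    ((36864 * Real.exp L ^ 9) ^ 7) ^ 2 * (8 * Real.exp L ^ 2) ≤ Real.exp (285 * L) := by
  have h1 := le_exp_nat 36864 11 (by norm_num)
  have h2 := le_exp_nat 8 3 (by norm_num)
  have hK : 0 < Real.exp L := Real.exp_pos L
  calc ((36864 * Real.exp L ^ 9) ^ 7) ^ 2 * (8 * Real.exp L ^ 2)
      ≤ ((Real.exp (11 : ℕ) * Real.exp L ^ 9) ^ 7) ^ 2 * (Real.exp (3 : ℕ) * Real.exp L ^ 2) := by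
        gcongr
    _ = Real.exp (157 + 128 * L) := by
        simp only [← Real.exp_nat_mul, ← Real.exp_add]
        congr 1
        push_cast
        ring
    _ ≤ Real.exp (285 * L) := Real.exp_le_exp.2 (by linarith)

theorem num_t (L : ℝ) (hL : 1 ≤ L) : ∃ t : ℕ, Real.exp (285 * L) * (3 / 4) ^ t < 1 ∧
    8 * Real.exp L ^ 2 * 1200 ^ t ≤ Real.exp (10000 * L) := by
  refine ⟨4 * (⌈285 * L⌉₊ + 1), ?_, ?_⟩
  · have h1 : (3 / 4 : ℝ) ^ 4 ≤ Real.exp (-1) := by
      have := Real.exp_neg_one_gt_d9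
      norm_num at this ⊢
      linarith
    have h2 : 285 * L ≤ ⌈285 * L⌉₊ := Nat.le_ceil _
    calc Real.exp (285 * L) * (3 / 4) ^ (4 * (⌈285 * L⌉₊ + 1))
        = Real.exp (285 * L) * ((3 / 4) ^ 4) ^ (⌈285 * L⌉₊ + 1) := by rw [pow_mul]
      _ ≤ Real.exp (285 * L) * Real.exp (-1) ^ (⌈285 * L⌉₊ + 1) := by gcongr
      _ = Real.exp (285 * L - (⌈285 * L⌉₊ + 1)) := by
          rw [← Real.exp_nat_mul, ← Real.exp_add]
          congr 1
          push_cast
          ring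
      _ < 1 := Real.exp_lt_one_iff.2 (by linarith)
  · have h1 := le_exp_nat 1200 8 (by norm_num)
    have h2 := le_exp_nat 8 3 (by norm_num)
    have h3 : (⌈285 * L⌉₊ : ℝ) < 285 * L + 1 := Nat.ceil_lt_add_one (by linarith)
    have hK : 0 < Real.exp L := Real.exp_pos L
    calc 8 * Real.exp L ^ 2 * 1200 ^ (4 * (⌈285 * L⌉₊ + 1))
        ≤ Real.exp (3 : ℕ) * Real.exp L ^ 2 * Real.exp (8 : ℕ) ^ (4 * (⌈285 * L⌉₊ + 1)) := by
          gcongr
      _ = Real.exp (3 + 2 * L + 32 * (⌈285 * L⌉₊ + 1)) := by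
          simp only [← Real.exp_nat_mul, ← Real.exp_add]
          congr 1
          push_cast
          ring
      _ ≤ Real.exp (10000 * L) := Real.exp_le_exp.2 (by linarith)

theorem num_pos {a b c : ℝ} (ha : 0 < a) (hc : 0 ≤ c) (h : a ≤ b * c) : 0 < c := by
  rcases hc.lt_or_eq with h1 | h1
  · exact h1
  · rw [← h1, mul_zero] at h
    linarith

variable {κ W : Type} [Fintype κ] [DecidableEq κ] [NormedAddCommGroup W] [NormedSpace ℝ W]
  {T : (κ → ℝ) →ₗ[ℝ] W} {G : Type} [AddCommGroup G] [DecidableEq G] {N : G → ℝ}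
  {bl : ℝ → Finset G} {D : ℕ}

/-- the core of the theorem of Freiman for maps to a normed torus -/
theorem core (hT : Function.Injective T) (hB : Bl N bl D) (f g ζ : G → κ → ℝ)
    (r : G → G → Prop) [∀ a b, Decidable (r a b)] (P1 P2 X1 X2 : Finset G) {ρ L R R4 : ℝ}
    (hL : 1 ≤ L) (hρ : 0 < ρ) (hR4 : 0 < R4) (hR : (36 * D + 12) * R4 ≤ R)
    (n1 : P1.Nonempty) (n2 : P2.Nonempty)
    (hr : ∀ a b, r a b → Cz T ρ (f a + g b - ζ (a + b)))
    (hc : (P1.card : ℝ) * P2.card ≤ Real.exp L * ((P1 ×ˢ P2).filter fun p => r p.1 p.2).card)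
    (hX1 : ∀ a ∈ P1, ∀ b ∈ P2, a + b ∈ X1) (cX1 : (X1.card : ℝ) ≤ Real.exp L * P1.card)
    (hX2 : ∀ b ∈ P2, ∀ u, N u ≤ R → b + u ∈ X2) (cX2 : (X2.card : ℝ) ≤ Real.exp L * P2.card) :
    ∃ (x : G) (S : Finset G), S ⊆ P2 ∧ (∀ s ∈ S, ∃ a, r a s) ∧ (∀ s ∈ S, N (s - x) ≤ R4) ∧
      ((bl R4).card : ℝ) ≤ Real.exp (10000 * L) * S.card ∧
      ∀ z ∈ Rel g S 6, Cz T (100000 * ((Fintype.card κ : ℝ) + 2) ^ 3 * ρ) z := by
  classical
  set K := Real.exp L with hKdef
  have hK1 : 1 ≤ K := Real.one_le_exp (by linarith)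
  have hK0 : 0 < K := by linarith
  set m : ℝ := (Fintype.card κ : ℝ) with hm
  have hm0 : 0 ≤ m := Nat.cast_nonneg _
  obtain ⟨q, u, hu⟩ := exists_round T (show 0 < ρ / 12 by positivity)
  have hu' : ∀ y, Cz T (ρ / 12) (fv q (u y) - y) := fun y =>
    (Cz.of_norm (hu y)).neg.congr (neg_sub _ _).symm
  have hY := bl_fN hT q
  have p1 : (0 : ℝ) < P1.card := by exact_mod_cast n1.card_pos
  have p2 : (0 : ℝ) < P2.card := by exact_mod_cast n2.card_pos
  set c : (κ → ℝ) → κ → ZMod (q + 1) := fun y => rd κ (q + 1) (u y) with hcdef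
  obtain ⟨A', hA', B', hB', cA, cB, hU, hfew⟩ := list G (κ → ZMod (q + 1)) (fN T q) hY.sz P1 P2
    (fun a => c (f a)) (fun a => c (g a)) (fun a => c (ζ a)) r K (2 * ρ) hK1 n1 n2
    (fun a b h => by
      simp only [hcdef]
      rw [← map_add, ← map_sub, fN_rd hT, map_sub, map_add]
      refine ((((hr a b h).add (hu' (f a))).add (hu' (g b))).sub (hu' (ζ (a + b)))).congr
        (by abel) |>.dz_le.trans (by linarith)) hc
  obtain ⟨R3, h31, h32, h33⟩ := hB.reg2 (show 0 < 6 * R4 by positivity)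
  have hR3 : R3 ≤ R := by
    have h1 : (6 * (D : ℝ) + 2) * (6 * R4) = (36 * D + 12) * R4 := by ring
    linarith
  have p3 := hB.card_pos (show 0 ≤ R3 by linarith)
  have p4 := hB.card_pos hR4.le
  obtain ⟨x3, hx3⟩ := hB.loc B' X2 R3 fun s hs v hv => hX2 s (hB' hs) v (hv.trans hR3)
  set B2 := B'.filter fun s => N (s - x3) ≤ R3 with hB2
  have cB2 : ((bl R3).card : ℝ) ≤ 4 * K ^ 2 * B2.card := by
    refine le_of_mul_le_mul_left ?_ p2
    calc (P2.card : ℝ) * (bl R3).card ≤ 4 * K * B'.card * (bl R3).card := by gcongr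
      _ = 4 * K * (B'.card * (bl R3).card) := by ring
      _ ≤ 4 * K * (K * P2.card * B2.card) :=
          mul_le_mul_of_nonneg_left (hx3.trans
            (mul_le_mul_of_nonneg_right cX2 (Nat.cast_nonneg _))) (by positivity)
      _ = _ := by ring
  have pB2 : (0 : ℝ) < B2.card := num_pos p3 (Nat.cast_nonneg _) cB2
  have pA : (0 : ℝ) < A'.card := num_pos p1 (Nat.cast_nonneg _) cA
  have f0 : ∀ y, Few (fN T q) (3072 * K ^ 7) (6 * (2 * ρ))
      (Fib2 (fun a => c (f a)) (fun a => c (g a)) A' B2 y) := by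
    intro y
    refine (hfew B2 (filter_subset _ _) X1 (X2.image fun v => v - x3) hX1
      (fun b' hb' b hb => mem_image.2 ⟨b' + (x3 - b), hX2 b' hb' _ ?_, by abel⟩) y).mono ?_ le_rfl
      (fun _ h => h)
    · rw [hB.sz.symm]
      exact (mem_filter.1 hb).2.trans hR3
    · rw [div_le_iff₀ (by positivity)]
      have h1 : ((X2.image fun v => v - x3).card : ℝ) ≤ K * P2.card :=
        (Nat.cast_le.2 card_image_le).trans cX2
      calc 3072 * K ^ 5 * X1.card * (X2.image fun v => v - x3).card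
          ≤ 3072 * K ^ 5 * (K * P1.card) * (K * P2.card) := by gcongr
        _ = 3072 * K ^ 7 * ((P1.card : ℝ) * P2.card) := by ring
  obtain ⟨r1, h11, h12, h13⟩ := hY.reg2 (show 0 < 6 * (2 * ρ) by positivity)
  have f1 : ∀ y, Few (fN T q) ((36864 * K ^ 9) ^ 7) (2 * r1)
      (Fib (fun a => c (g a)) B2 (6 + 1) y) := by
    intro y
    refine (plu G (κ → ZMod (q + 1)) (fN T q) hY.sz A' B2 X1 _ _ (fun a => c (f a))
      (fun a => c (g a)) (3072 * K ^ 7) (6 * (2 * ρ)) r1 7 (by rw [← card_pos]; exact_mod_cast pA)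
      ⟨0, hY.zero_mem (show 0 ≤ r1 by linarith)⟩ (by positivity)
      (fun a ha b hb => hX1 a (hA' ha) b (hB' (mem_filter.1 hb).1))
      (fun v hv => (hY.mem _ _).1 hv)
      (fun v hv y hy => (hY.mem (r1 + 6 * (2 * ρ)) _).2
        ((hY.sz.add _ _).trans (add_le_add ((hY.mem _ _).1 hv) hy)))
      (by exact_mod_cast h13) f0 y).mono ?_ le_rfl (fun _ h => h)
    refine pow_le_pow_left₀ (by positivity) ?_ 7
    rw [div_le_iff₀ pA]
    calc 2 * (3072 * K ^ 7) * X1.card ≤ 2 * (3072 * K ^ 7) * (K * (6 * K * A'.card)) := by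
          have := cX1.trans (mul_le_mul_of_nonneg_left cA hK0.le)
          gcongr
      _ = 36864 * K ^ 9 * A'.card := by ring
  obtain ⟨x4, hx4⟩ := hB.loc B2 (tr bl x3 (R3 + 6 * R4)) R4 fun s hs v hv => hB.mem_tr.2 (by
    rw [add_sub_right_comm]
    exact (hB.sz.add _ _).trans (add_le_add (mem_filter.1 hs).2 (by linarith)))
  set B5 := B2.filter fun s => N (s - x4) ≤ R4 with hB5
  have c3 : ∀ x, ((tr bl x (R3 + 6 * R4)).card : ℝ) ≤ 8 * K ^ 2 * B2.card := fun x => by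
    rw [card_tr]
    linarith
  have cB5 : ((bl R4).card : ℝ) ≤ 8 * K ^ 2 * B5.card := by
    refine le_of_mul_le_mul_left (hx4.trans ?_) pB2
    exact (mul_le_mul_of_nonneg_right (c3 x3) (Nat.cast_nonneg _)).trans_eq (by ring)
  have f2 : Few (fN T q) (Real.exp (285 * L)) (4 * (2 * r1)) (Rel (fun a => c (g a)) B5 6) := by
    refine (csl G (κ → ZMod (q + 1)) (fN T q) hY.sz B2 B5 (tr bl (x3 + ∑ _i : Fin 6, x4)
      (R3 + 6 * R4)) _ _ _ 6 (filter_subset _ _) (by rw [← card_pos]; exact_mod_cast pB2)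
      (by linarith) (fun b hb s hs => hB.mem_tr.2 ?_) f1).mono ?_ le_rfl (fun _ h => h)
    · rw [add_sub_add_comm, ← sum_sub_distrib]
      refine (hB.sz.add _ _).trans (add_le_add (mem_filter.1 hb).2 ?_)
      exact_mod_cast sz_sum_le hB.sz fun i => (mem_filter.1 (hs i)).2
    · refine le_trans ?_ (num_M L hL)
      rw [div_le_iff₀ pB2, mul_assoc]
      exact mul_le_mul_of_nonneg_left (c3 _) (by positivity)
  obtain ⟨Lc, -, cL, hLc⟩ := f2.cover hY.sz (by linarith)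
  obtain ⟨t, ht1, ht2⟩ := num_t L hL
  obtain ⟨S, hS, cS, hrel⟩ := rnd hT g B5 Lc (fun l => fv q (vl l))
    (show 0 < 600 * (m + 2) * ρ by positivity) t
    (lt_of_le_of_lt (mul_le_mul_of_nonneg_right cL (by positivity)) ht1) (by
      rintro z ⟨a, b, ha, hb, hab, rfl⟩
      obtain ⟨l, hl, h1⟩ := hLc _ ⟨a, b, ha, hb, hab, rfl⟩
      refine ⟨l, hl, ?_⟩
      simp only [hcdef] at h1
      rw [← map_sum, ← map_sum, ← map_sub, ← rd_vl l, ← map_sub, fN_rd hT, ← cz_iff hT, map_sub,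
        map_sub, map_sum, map_sum] at h1
      have h2 : ∀ a : Fin 6 → G, Cz T (ρ / 2) (∑ i, fv q (u (g (a i))) - ∑ i, g (a i)) := by
        intro a
        rw [← sum_sub_distrib, cz_iff hT]
        exact (sz_sum_le (sz_dz hT) fun i => (hu' (g (a i))).dz_le).trans_eq (by push_cast; ring)
      refine (((h1.sub (h2 a)).add (h2 b)).congr (by abel)).mono ?_
      have h3 : 0 ≤ m * ρ := by positivity
      have h4 : (6 * m + 2) * (6 * (2 * ρ)) = 72 * (m * ρ) + 24 * ρ := by ring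
      have h5 : 600 * (m + 2) * ρ = 600 * (m * ρ) + 1200 * ρ := by ring
      rw [← hm] at h12
      linarith)
  have hSB' : S ⊆ B' := fun s hs => (mem_filter.1 (mem_filter.1 (hS hs)).1).1
  refine ⟨x4, S, hSB'.trans hB', fun s hs => hU s (hSB' hs), fun s hs => (mem_filter.1 (hS hs)).2,
    ?_, fun z hz => (hrel z hz).mono ?_⟩
  · have cS' : (B5.card : ℝ) ≤ 1200 ^ t * S.card := by exact_mod_cast cS
    calc ((bl R4).card : ℝ) ≤ 8 * K ^ 2 * (1200 ^ t * S.card) := cB5.trans (by gcongr)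
      _ = 8 * K ^ 2 * 1200 ^ t * S.card := by ring
      _ ≤ Real.exp (10000 * L) * S.card := by gcongr
  · rw [← hm]
    have h1 : (m + 2) * ρ ≤ (m + 2) ^ 3 * ρ := by
      gcongr
      exact le_self_pow₀ (by linarith) (by norm_num)
    have h2 : 0 ≤ (m + 2) ^ 3 * ρ := by positivity
    have h3 : 100 * (m + 2) ^ 2 * (600 * (m + 2) * ρ) = 60000 * ((m + 2) ^ 3 * ρ) := by ring
    rw [h3, mul_assoc, mul_assoc]
    linarith

end

end Vale.Agent.P057FT
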