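import Vale.Agent.P057FT.Bog

/-! The theorem of Freiman for maps from a lattice ball to a normed torus. -/

set_option linter.all false

open Finset
open scoped BigOperators

namespace Vale.Agent.P057FT

open Vale.Agent.P057Z Vale.Agent.P057Z.Fr Vale.Agent.P057HU

noncomputable section

section defs

variable {n κ W W' : Type} [Fintype n] [Fintype κ] [NormedAddCommGroup W] [NormedSpace ℝ W]
  [NormedAddCommGroup W'] [NormedSpace ℝ W']

/-- the chart property on the Bohr body with the radii `a` and `τ` -/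
structure Ch (T : (n → ℝ) →ₗ[ℝ] W) (T' : (κ → ℝ) →ₗ[ℝ] W') (g : (n → ℤ) → κ → ℝ)
    (S : Finset (n → ℤ)) {r : ℕ} (θ : Fin r → n → ℝ) (F1 : (n → ℝ) →ₗ[ℝ] (κ → ℝ))
    (F2 : (Fin r → ℝ) →ₗ[ℝ] (κ → ℝ)) (a τ ε : ℝ) : Prop where
  rep : ∀ x, ‖T (zc x)‖ ≤ a → (∀ i, ∃ m : ℤ, |θ i ⬝ᵥ zc x - m| ≤ τ) → Rep S x
  four : ∀ s1 ∈ S, ∀ s2 ∈ S, ∀ s3 ∈ S, ∀ s4 ∈ S, ∀ m : Fin r → ℤ,
    ‖T (zc (s1 + s2 - s3 - s4))‖ ≤ a → (∀ i, |θ i ⬝ᵥ zc (s1 + s2 - s3 - s4) - m i| ≤ τ) →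
    Cz T' ε (g s1 + g s2 - g s3 - g s4 - F1 (zc (s1 + s2 - s3 - s4)) - F2 (zc m))

variable {T : (n → ℝ) →ₗ[ℝ] W} {T' : (κ → ℝ) →ₗ[ℝ] W'} {g : (n → ℤ) → κ → ℝ}
  {S : Finset (n → ℤ)} {r : ℕ} {θ : Fin r → n → ℝ} {F1 : (n → ℝ) →ₗ[ℝ] (κ → ℝ)}
  {F2 : (Fin r → ℝ) →ₗ[ℝ] (κ → ℝ)} {a τ ε : ℝ}

theorem Ch.two (h : Ch T T' g S θ F1 F2 a τ ε) {s s' : n → ℤ} (hs : s ∈ S) (hs' : s' ∈ S)
    (m : Fin r → ℤ) (h1 : ‖T (zc (s - s'))‖ ≤ a) (h2 : ∀ i, |θ i ⬝ᵥ zc (s - s') - m i| ≤ τ) :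
    Cz T' ε (g s - g s' - F1 (zc (s - s')) - F2 (zc m)) := by
  have e : s + s - s' - s = s - s' := by abel
  have := h.four s hs s hs s' hs' s hs m (by rwa [e]) (by rwa [e])
  rw [e] at this
  exact this.congr (by abel)

theorem Ch.mono (h : Ch T T' g S θ F1 F2 a τ ε) {a' τ' ε' : ℝ} (h1 : a' ≤ a) (h2 : τ' ≤ τ)
    (h3 : ε ≤ ε') : Ch T T' g S θ F1 F2 a' τ' ε' :=
  ⟨fun x hx hi => h.rep x (hx.trans h1) fun i => (hi i).imp fun _ h => h.trans h2,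
    fun s1 a1 s2 a2 s3 a3 s4 a4 m hx hi =>
      (h.four s1 a1 s2 a2 s3 a3 s4 a4 m (hx.trans h1) fun i => (hi i).trans h2).mono h3⟩

/-- the integer parts of the frequencies -/
def fl (θ : Fin r → n → ℝ) (s : n → ℤ) : Fin r → ℤ := fun i => ⌊θ i ⬝ᵥ zc s⌋

/-- on a set inside one ball and one arc for each frequency the map is affine -/
theorem Ch.affine (h : Ch T T' g S θ F1 F2 a τ ε) {E : Finset (n → ℤ)} (hE : E ⊆ S) {x : n → ℤ}
    (h1 : ∀ s ∈ E, ‖T (zc (s - x))‖ ≤ a / 2)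
    (h2 : ∀ s ∈ E, ∀ s' ∈ E, ∀ i, |Int.fract (θ i ⬝ᵥ zc s) - Int.fract (θ i ⬝ᵥ zc s')| ≤ τ) :
    ∃ c, ∀ s ∈ E, Cz T' ε (g s - F1 (zc s) - F2 (zc (fl θ s)) - c) := by
  rcases E.eq_empty_or_nonempty with rfl | ⟨s0, h0⟩
  · exact ⟨0, by simp⟩
  refine ⟨g s0 - F1 (zc s0) - F2 (zc (fl θ s0)), fun s hs => ?_⟩
  refine (h.two (hE hs) (hE h0) (fl θ s - fl θ s0) ?_ fun i => ?_).congr ?_
  · refine ((sz_ln T).tri s x s0).trans ?_
    rw [(sz_ln T).symm x]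
    have := h1 s hs
    have := h1 s0 h0
    unfold ln
    linarith
  · refine le_trans (le_of_eq ?_) (h2 s hs s0 h0 i)
    rw [map_sub, dotProduct_sub]
    unfold Int.fract fl
    congr 1
    simp only [Pi.sub_apply]
    push_cast
    ring
  · simp only [map_sub]
    abel

/-- pigeonhole in arcs -/
theorem arcs {G : Type} (S : Finset G) {r : ℕ} (t : G → Fin r → ℝ) {M : ℕ} (hM : 1 ≤ M) :
    ∃ E ⊆ S, S.card ≤ M ^ r * E.card ∧
      ∀ s ∈ E, ∀ s' ∈ E, ∀ i, |Int.fract (t s i) - Int.fract (t s' i)| ≤ 1 / M := by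
  classical
  have hM0 : (0 : ℝ) < M := by exact_mod_cast hM
  set φ : G → Fin r → ℕ := fun b j => ⌊M * Int.fract (t b j)⌋₊ with hφ
  obtain ⟨c, -, hc⟩ := exists_max_image (Fintype.piFinset fun _ : Fin r => range M)
    (fun c => (S.filter fun b => φ b = c).card)
    ⟨fun _ => 0, Fintype.mem_piFinset.2 fun _ => mem_range.2 hM⟩
  refine ⟨S.filter fun b => φ b = c, filter_subset _ _, ?_, fun s hs s' hs' i => ?_⟩
  · have := card_le_mul_card_image_of_maps_to (f := φ) (s := S) (fun b _ =>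
      Fintype.mem_piFinset.2 fun j => mem_range.2 (by
        refine (Nat.floor_lt (by have := Int.fract_nonneg (t b j); positivity)).2 ?_
        exact mul_lt_of_lt_one_right hM0 (Int.fract_lt_one _))) _ hc
    simpa [mul_comm] using this
  · have h : ⌊M * Int.fract (t s i)⌋₊ = ⌊M * Int.fract (t s' i)⌋₊ :=
      congrFun ((mem_filter.1 hs).2.trans (mem_filter.1 hs').2.symm) i
    have h1 := Nat.floor_le (a := M * Int.fract (t s i))
      (by have := Int.fract_nonneg (t s i); positivity)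
    have h2 := Nat.floor_le (a := M * Int.fract (t s' i))
      (by have := Int.fract_nonneg (t s' i); positivity)
    have h3 := Nat.lt_floor_add_one (M * Int.fract (t s i))
    have h4 := Nat.lt_floor_add_one (M * Int.fract (t s' i))
    rw [h] at h1 h3
    rw [le_div_iff₀ hM0, ← abs_of_pos hM0, ← abs_mul, abs_le]
    constructor <;> linarith

end defs

theorem six_le {X : ℝ} (hX : 5040 ≤ X) : X ^ 6 ≤ Real.exp X := by
  have h := Km.Apb.pow_le X (by linarith) 7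
  rw [show ((Nat.factorial 7 : ℕ) : ℝ) = 5040 by norm_num [Nat.factorial]] at h
  have h1 : 5040 * X ^ 6 ≤ X * X ^ 6 := by gcongr
  nlinarith

theorem exp_two (X : ℝ) : Real.exp (2 * X) = Real.exp X * Real.exp X := by
  rw [← Real.exp_add, two_mul]

/-- relations of six terms on a dense set give a chart -/
theorem chart_of_rel : ∃ X0 : ℝ, ∀ X : ℝ, X0 ≤ X →
    ∀ (n κ W W' : Type) [Fintype n] [DecidableEq n] [Fintype κ] [NormedAddCommGroup W]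
      [NormedSpace ℝ W] [NormedAddCommGroup W'] [NormedSpace ℝ W'] (T : (n → ℝ) →ₗ[ℝ] W)
      (T' : (κ → ℝ) →ₗ[ℝ] W') (g : (n → ℤ) → κ → ℝ) (S : Finset (n → ℤ)) (x0 : n → ℤ)
      (R δ ε : ℝ), Function.Injective T → Function.Injective T' →
      (Fintype.card n : ℝ) ≤ Real.exp X → 0 ≤ R → 0 < δ → 0 ≤ ε →
      (∀ k : κ → ℤ, ‖T' (zc k)‖ ≤ Real.exp (2 * X) * ε → k = 0) →
      (∀ s ∈ S, ‖T (zc (s - x0))‖ ≤ R) → 2 * (#(lb T (R + δ)) : ℝ) ≤ Real.exp X * #S →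
      (∀ z ∈ Rel g S 6, Cz T' ε z) →
      ∃ (r : ℕ) (θ : Fin r → n → ℝ) (F1 : (n → ℝ) →ₗ[ℝ] (κ → ℝ)) (F2 : (Fin r → ℝ) →ₗ[ℝ] (κ → ℝ)),
        (r : ℝ) ≤ X ^ 6 ∧ Ch T T' g S θ F1 F2 (δ * Real.exp (-(14 * X))) (Real.exp (-(5 * X)))
          (Real.exp (2 * X) * ε) := by
  obtain ⟨X0, hb⟩ := bog
  refine ⟨max X0 5040, fun X hX n κ W W' _ _ _ _ _ _ _ T T' g S x0 R δ ε hT hT' hn hR hδ hε hΓ hS
    hc hrel => ?_⟩
  have hX0 : 5040 ≤ X := (le_max_right _ _).trans hX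
  obtain ⟨r, θ, hr, hθ⟩ := hb X ((le_max_left _ _).trans hX) n (ln T) (lb T) _ S x0 R δ
    (bl_lb T hT) hn hR hδ hS hc
  have h1 := Real.add_one_le_exp X
  have h2 : ((Fintype.card n + r : ℕ) : ℝ) ≤ 2 * Real.exp X := by
    push_cast
    linarith [six_le hX0]
  have h3 : 40 * Real.exp X ≤ Real.exp (2 * X) := by
    rw [exp_two]
    exact mul_le_mul_of_nonneg_right (by linarith) (Real.exp_pos _).le
  have h4 : ∀ c : ℝ, Real.exp (-((c + 2) * X)) * (2 * ((Fintype.card n + r : ℕ) : ℝ)) ≤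
      Real.exp (-(c * X)) := by
    intro c
    rw [show -(c * X) = -((c + 2) * X) + 2 * X by ring, Real.exp_add]
    exact mul_le_mul_of_nonneg_left (by linarith) (Real.exp_pos _).le
  have h5 := h4 12
  have h6 := h4 3
  norm_num only at h5 h6
  obtain ⟨F1, F2, hF⟩ := chart hT' hT θ (a := δ * Real.exp (-(14 * X)))
    (τ := Real.exp (-(5 * X))) (by positivity) (Real.exp_pos _) hε _ le_rfl g S
    (fun k hk => hΓ k (hk.trans (by
      rw [← mul_assoc]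
      exact mul_le_mul_of_nonneg_right (by linarith) hε))) hrel
    fun x hx hi => hθ x (hx.trans (by
      rw [mul_assoc]
      exact mul_le_mul_of_nonneg_left h5 hδ.le)) fun i => (hi i).imp fun _ h => h.trans h6
  refine ⟨r, θ, F1, F2, hr, fun x hx hi => hθ x (hx.trans ?_) fun i => (hi i).imp fun _ h =>
    h.trans (Real.exp_le_exp.2 (by linarith)), fun s1 a1 s2 a2 s3 a3 s4 a4 m hx hi =>
      (hF s1 a1 s2 a2 s3 a3 s4 a4 m hx hi).mono (mul_le_mul_of_nonneg_right (by linarith) hε)⟩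
  exact mul_le_mul_of_nonneg_left (Real.exp_le_exp.2 (by linarith)) hδ.le

open Classical in
/-- the theorem of Freiman in a normed torus -/
theorem frt : ∃ X0 : ℝ, ∀ X : ℝ, X0 ≤ X →
    ∀ (n κ W W' : Type) [Fintype n] [DecidableEq n] [Fintype κ] [DecidableEq κ]
      [NormedAddCommGroup W] [NormedSpace ℝ W] [NormedAddCommGroup W'] [NormedSpace ℝ W']
      (T : (n → ℝ) →ₗ[ℝ] W) (T' : (κ → ℝ) →ₗ[ℝ] W') (f g ζ : (n → ℤ) → κ → ℝ)
      (rel : (n → ℤ) → (n → ℤ) → Prop) (P1 P2 X1 X2 : Finset (n → ℤ)) (R ρ : ℝ),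
      Function.Injective T → Function.Injective T' → (Fintype.card n : ℝ) ≤ Real.exp X →
      (Fintype.card κ : ℝ) ≤ Real.exp X → 0 < R → 0 < ρ → P1.Nonempty → P2.Nonempty →
      (∀ k : κ → ℤ, ‖T' (zc k)‖ ≤ Real.exp (X ^ 2) * ρ → k = 0) →
      (∀ a b, rel a b → Cz T' ρ (f a + g b - ζ (a + b))) →
      (#P1 : ℝ) * #P2 ≤ Real.exp X * #{p ∈ P1 ×ˢ P2 | rel p.1 p.2} →
      (∀ a ∈ P1, ∀ b ∈ P2, a + b ∈ X1) → (#X1 : ℝ) ≤ Real.exp X * #P1 →
      (∀ b ∈ P2, ∀ u, ‖T (zc u)‖ ≤ R → b + u ∈ X2) → (#X2 : ℝ) ≤ Real.exp X * #P2 →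
      ∃ (S : Finset (n → ℤ)) (r : ℕ) (θ : Fin r → n → ℝ) (F1 : (n → ℝ) →ₗ[ℝ] (κ → ℝ))
        (F2 : (Fin r → ℝ) →ₗ[ℝ] (κ → ℝ)), S ⊆ P2 ∧ (∀ s ∈ S, ∃ a, rel a s) ∧ (r : ℝ) ≤ X ^ 7 ∧
        (∀ z ∈ Rel g S 6, Cz T' (Real.exp (X ^ 2) * ρ) z) ∧
        Ch T T' g S θ F1 F2 (R * Real.exp (-X ^ 2)) (Real.exp (-X ^ 2)) (Real.exp (X ^ 2) * ρ) ∧
        ∀ a, 0 ≤ a → a ≤ R * Real.exp (-X ^ 2) → ∃ x,
          (#(lb T a) : ℝ) ≤ Real.exp (X ^ 2) * #{s ∈ S | ‖T (zc (s - x))‖ ≤ a} := by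
  obtain ⟨X0, hb⟩ := chart_of_rel
  refine ⟨max (max X0 0) (10002 ^ 6), fun X hX n κ W W' _ _ _ _ _ _ _ _ T T' f g ζ rel P1 P2 X1 X2
    R ρ hT hT' hn hκ hR hρ n1 n2 hΓ hr hc hX1 cX1 hX2 cX2 => ?_⟩
  have hX0 : 10002 ^ 6 ≤ X := (le_max_right _ _).trans hX
  have hX0' : 200000 ≤ X := le_trans (by norm_num) hX0
  have hX3 : X0 ≤ 10002 * X := by
    have := ((le_max_left _ _).trans (le_max_left _ _)).trans hX
    linarith
  have hB := bl_lb T hT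
  have e1 := Real.add_one_le_exp X
  have pe := Real.exp_pos X
  have sq : ∀ c : ℝ, c ≤ 200000 → c * X ≤ X ^ 2 := fun c hc => by nlinarith
  set δ := R * Real.exp (-(4 * X)) with hδ
  have hδ0 : 0 < δ := by positivity
  have hD0 : (0 : ℝ) ≤ Fintype.card n := Nat.cast_nonneg _
  obtain ⟨R4, h1, h2, h3⟩ := hB.reg2 hδ0
  have h4 : (36 * (Fintype.card n : ℝ) + 12) * R4 ≤ R := by
    have a1 : 36 * (Fintype.card n : ℝ) + 12 ≤ Real.exp (2 * X) := by rw [exp_two]; nlinarith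
    have a2 : 6 * (Fintype.card n : ℝ) + 2 ≤ Real.exp (2 * X) := by linarith
    have a3 : R4 ≤ Real.exp (2 * X) * δ := by nlinarith
    refine (mul_le_mul a1 a3 (by linarith) (Real.exp_pos _).le).trans_eq ?_
    rw [hδ, ← mul_assoc, mul_left_comm, ← Real.exp_add, ← Real.exp_add,
      show 2 * X + 2 * X + -(4 * X) = 0 by ring, Real.exp_zero, mul_one]
  obtain ⟨x0, S, hS1, hS2, hS3, cS, hrel⟩ := core hT' hB f g ζ rel P1 P2 X1 X2 (by linarith) hρ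
    (by linarith) h4 n1 n2 hr hc hX1 cX1 hX2 cX2
  have h5 : 100000 * ((Fintype.card κ : ℝ) + 2) ^ 3 * ρ ≤ Real.exp (7 * X) * ρ := by
    refine mul_le_mul_of_nonneg_right ?_ hρ.le
    have a1 : (Fintype.card κ : ℝ) + 2 ≤ Real.exp (2 * X) := by rw [exp_two]; nlinarith
    calc 100000 * ((Fintype.card κ : ℝ) + 2) ^ 3 ≤ Real.exp X * Real.exp (2 * X) ^ 3 := by
          gcongr
          linarith
      _ = Real.exp (7 * X) := by
          rw [← Real.exp_nat_mul, ← Real.exp_add]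
          congr 1
          push_cast
          ring
  have h6 : Real.exp (2 * (10002 * X)) * (Real.exp (7 * X) * ρ) ≤ Real.exp (X ^ 2) * ρ := by
    rw [← mul_assoc, ← Real.exp_add]
    exact mul_le_mul_of_nonneg_right (Real.exp_le_exp.2 (by linarith [sq 20011 (by norm_num)])) hρ.le
  have h7 : 2 * (#(lb T (R4 + δ)) : ℝ) ≤ Real.exp (10002 * X) * #S := by
    have a1 : 4 * Real.exp (10000 * X) ≤ Real.exp (10002 * X) := by
      rw [show 10002 * X = 2 * X + 10000 * X by ring, Real.exp_add, exp_two]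
      exact mul_le_mul_of_nonneg_right (by nlinarith) (Real.exp_pos _).le
    have a2 := mul_le_mul_of_nonneg_right a1 (Nat.cast_nonneg (α := ℝ) #S)
    linarith
  obtain ⟨r, θ, F1, F2, hr', hch⟩ := hb (10002 * X) hX3 n κ W W' T T' g S x0 R4 δ
    (Real.exp (7 * X) * ρ) hT hT' (hn.trans (Real.exp_le_exp.2 (by linarith))) (by linarith) hδ0
    (by positivity) (fun k hk => hΓ k (hk.trans h6)) hS3 h7 fun z hz => (hrel z hz).mono h5
  have h8 : ∀ c : ℝ, c ≤ 199996 → R * Real.exp (-X ^ 2) ≤ δ * Real.exp (-(c * X)) := by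
    intro c hc
    rw [hδ, mul_assoc, ← Real.exp_add]
    exact mul_le_mul_of_nonneg_left
      (Real.exp_le_exp.2 (by linarith [sq (c + 4) (by linarith)])) hR.le
  refine ⟨S, r, θ, F1, F2, hS1, hS2, hr'.trans ?_, fun z hz => (hrel z hz).mono (h5.trans ?_),
    hch.mono ?_ (Real.exp_le_exp.2 (by linarith [sq 50010 (by norm_num)])) h6, fun a ha ha' => ?_⟩
  · rw [mul_pow, pow_succ' X 6]
    exact mul_le_mul_of_nonneg_right hX0 (by positivity)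
  · exact mul_le_mul_of_nonneg_right (Real.exp_le_exp.2 (sq 7 (by norm_num))) hρ.le
  · rw [← mul_assoc (14 : ℝ)]
    exact h8 _ (by norm_num)
  · have a0 : a ≤ δ := by simpa using ha'.trans (h8 0 (by norm_num))
    obtain ⟨x, hx⟩ := hB.loc S (tr (lb T) x0 (R4 + δ)) a fun s hs v hv => hB.mem_tr.2 (by
      rw [add_sub_right_comm]
      exact (hB.sz.add _ _).trans (add_le_add (hS3 s hs) (by linarith)))
    rw [card_tr] at hx
    have p1 := hB.card_pos (show 0 ≤ R4 + δ by linarith)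
    have pS : (0 : ℝ) < #S := num_pos (by linarith) (Nat.cast_nonneg _) h7
    refine ⟨x, le_of_mul_le_mul_left (hx.trans ?_) pS⟩
    have a1 : (#(lb T (R4 + δ)) : ℝ) ≤ Real.exp (X ^ 2) * #S := by
      have := mul_le_mul_of_nonneg_right (Real.exp_le_exp.2 (sq 10002 (by norm_num))) pS.le
      linarith
    refine (mul_le_mul_of_nonneg_right a1 (Nat.cast_nonneg _)).trans_eq ?_
    rw [mul_left_comm, mul_assoc]
    rfl

end

end Vale.Agent.P057FT
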