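import Vale.Agent.P057FT.Frt
import Vale.Agent.P057HU.Quad

/-! Gaussian input and Gaussian output for the theorem of Freiman in a normed torus. -/

set_option linter.all false

open Finset Matrix
open scoped BigOperators Real

namespace Vale.Agent.P057FT

open Vale.Agent.P057Z.Fr Vale.Agent.P057HU Vale.Agent.P057G Vale.Agent.P267.H775

noncomputable section

variable {n : Type} [Fintype n] [DecidableEq n]

theorem half_le_gs {G : Matrix n n ℝ} {y : n → ℝ} (h : qq G y ≤ 1 / 9) : 1 / 2 ≤ gs G y := by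
  unfold gs
  have h1 := Real.add_one_le_exp (-(π * qq G y))
  have h2 : π * qq G y ≤ π * (1 / 9) := mul_le_mul_of_nonneg_left h Real.pi_pos.le
  linarith [Real.pi_lt_d2]

/-- from a Gaussian mean to the mean over a translate of a small symmetric set -/
theorem gauss_loc {G : Matrix n n ℝ} (hG : G.PosDef) (c : n → ℝ) (U : Finset (n → ℤ))
    (hU : ∀ u ∈ U, -u ∈ U) (hq : ∀ u ∈ U, qq G (toR u) ≤ 1 / 9) (hn : U.Nonempty)
    (F : (n → ℤ) → ℝ) {C β : ℝ} (h0 : ∀ x, 0 ≤ F x) (h1 : ∀ x, F x ≤ C) (hβ : 0 < β)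
    (h : β * th G c ≤ ∑' z, gs G (toR z - c) * F z) :
    ∃ x, β / 3 * #U ≤ ∑ u ∈ U, F (x + u) := by
  have hw := wt_gs hG c
  have hF : ∀ x, |F x| ≤ C := fun x => by rw [abs_of_nonneg (h0 x)]; exact h1 x
  have s1 : ∀ u : n → ℤ, Summable fun z : n → ℤ => gs G (toR z - (c + toR u)) * F z :=
    fun u => (wt_gs hG (c + toR u)).summ hF
  have e1 : ∀ u : n → ℤ, ∑' x : n → ℤ, gs G (toR x - c) * F (x + u) =
      ∑' z : n → ℤ, gs G (toR z - (c + toR u)) * F z := by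
    intro u
    rw [← (Equiv.addRight u).tsum_eq fun z : n → ℤ => gs G (toR z - (c + toR u)) * F z]
    refine tsum_congr fun x => ?_
    simp only [Equiv.coe_addRight, toR_add, add_sub_add_right_eq_sub]
  have e2 : ∑' x : n → ℤ, gs G (toR x - c) * ∑ u ∈ U, F (x + u) =
      ∑' z : n → ℤ, (∑ u ∈ U, gs G (toR z - (c + toR u))) * F z := by
    simp only [mul_sum, sum_mul]
    rw [Summable.tsum_finsetSum fun u _ => hw.summ fun x => hF (x + u),
      Summable.tsum_finsetSum fun u _ => s1 u]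
    exact sum_congr rfl fun u _ => e1 u
  have e3 : ∀ z : n → ℤ, #U / 2 * gs G (toR z - c) ≤ ∑ u ∈ U, gs G (toR z - (c + toR u)) := by
    intro z
    have a1 : ∑ u ∈ U, gs G (toR z - c - toR u) = ∑ u ∈ U, gs G (toR z - c + toR u) := by
      refine sum_nbij' (fun u => -u) (fun u => -u) hU hU (by simp) (by simp) fun u _ => ?_
      rw [toR_neg, ← sub_eq_add_neg]
    have a2 := card_nsmul_le_sum U (fun u => gs G (toR z - c - toR u) + gs G (toR z - c + toR u))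
      (gs G (toR z - c)) fun u hu => by
        have b1 := gs_cosh hG.1 (toR z - c) (toR u)
        have b2 := mul_le_mul_of_nonneg_left (half_le_gs (hq u hu)) (gs_pos G (toR z - c)).le
        linarith
    rw [sum_add_distrib, ← a1, nsmul_eq_mul] at a2
    simp only [← sub_sub]
    linarith
  have e4 : #U / 2 * ∑' z, gs G (toR z - c) * F z ≤
      ∑' z : n → ℤ, (∑ u ∈ U, gs G (toR z - (c + toR u))) * F z := by
    rw [← tsum_mul_left]
    refine ((hw.summ hF).mul_left _).tsum_le_tsum (fun z => ?_) ?_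
    · rw [← mul_assoc]
      exact mul_le_mul_of_nonneg_right (e3 z) (h0 z)
    · simp only [sum_mul]
      exact summable_sum fun u _ => s1 u
  have pU : (0 : ℝ) < #U := by exact_mod_cast hn.card_pos
  obtain ⟨x, hx⟩ := hw.exists_ge (F := fun x => ∑ u ∈ U, F (x + u)) (C := #U * C) (c := β / 3 * #U)
    (fun x => (abs_sum_le_sum_abs _ _).trans ((sum_le_card_nsmul _ _ C fun u _ => hF _).trans_eq
      (nsmul_eq_mul _ _))) (by
      rw [e2]
      refine lt_of_lt_of_le ?_ e4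
      have a1 := mul_le_mul_of_nonneg_left h (show (0 : ℝ) ≤ #U / 2 by positivity)
      have a2 := mul_pos (mul_pos pU hβ) (th_pos hG c)
      show th G c * _ < _
      linarith)
  exact ⟨x, hx.le⟩

open Classical in
/-- a dense relation under two Gaussian laws is dense on a pair of small windows -/
theorem gauss_in {G1 G2 : Matrix n n ℝ} (h1 : G1.PosDef) (h2 : G2.PosDef) (c1 c2 : n → ℝ)
    (U1 U2 : Finset (n → ℤ)) (hU1 : ∀ u ∈ U1, -u ∈ U1) (hU2 : ∀ u ∈ U2, -u ∈ U2)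
    (hq1 : ∀ u ∈ U1, qq G1 (toR u) ≤ 1 / 9) (hq2 : ∀ u ∈ U2, qq G2 (toR u) ≤ 1 / 9)
    (n1 : U1.Nonempty) (n2 : U2.Nonempty) (rel : (n → ℤ) → (n → ℤ) → Prop) {β : ℝ} (hβ : 0 < β)
    (h : β * (th G1 c1 * th G2 c2) ≤
      ∑' a, gs G1 (toR a - c1) * ∑' b, gs G2 (toR b - c2) * if rel a b then 1 else 0) :
    ∃ x1 x2, β / 9 * (#U1 * #U2) ≤
      #{p ∈ U1.image (fun u => u + x1) ×ˢ U2.image (fun u => u + x2) | rel p.1 p.2} := by
  have hw := wt_gs h2 c2
  have i1 : ∀ a b, |(if rel a b then 1 else 0 : ℝ)| ≤ 1 := fun a b => by split_ifs <;> simp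
  have i0 : ∀ a b, (0 : ℝ) ≤ if rel a b then 1 else 0 := fun a b => by split_ifs <;> simp
  have p1 : (0 : ℝ) < #U1 := by exact_mod_cast n1.card_pos
  obtain ⟨x1, hx1⟩ := gauss_loc h1 c1 U1 hU1 hq1 n1
    (fun a => ∑' b, gs G2 (toR b - c2) * if rel a b then 1 else 0) (β := β * th G2 c2)
    (fun a => tsum_nonneg fun b => mul_nonneg (gs_pos _ _).le (i0 a b))
    (fun a => (le_abs_self _).trans (hw.abs_le (i1 a))) (mul_pos hβ (th_pos h2 c2))
    (le_trans (le_of_eq (by ring)) h)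
  rw [← Summable.tsum_finsetSum fun u _ => hw.summ (i1 (x1 + u))] at hx1
  simp only [← mul_sum] at hx1
  obtain ⟨x2, hx2⟩ := gauss_loc h2 c2 U2 hU2 hq2 n2
    (fun b => ∑ u ∈ U1, if rel (x1 + u) b then 1 else 0) (C := #U1) (β := β / 3 * #U1)
    (fun b => sum_nonneg fun u _ => i0 _ _)
    (fun b => (sum_le_card_nsmul _ _ 1 fun u _ => (le_abs_self _).trans (i1 _ _)).trans_eq
      (by simp)) (by positivity) (le_trans (le_of_eq (by ring)) hx1)
  refine ⟨x1, x2, le_trans (le_of_eq (by ring)) (hx2.trans_eq ?_)⟩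
  rw [card_filter, sum_product, sum_image fun a _ b _ e => add_right_cancel e, sum_comm]
  push_cast
  refine sum_congr rfl fun u _ => ?_
  rw [sum_image fun a _ b _ e => add_right_cancel e]
  simp only [add_comm]

/-- weighted pigeonhole in arcs -/
theorem arcs_w {G : Type} (S : Finset G) (w : G → ℝ) {r : ℕ} (t : G → Fin r → ℝ) {M : ℕ}
    (hM : 1 ≤ M) : ∃ E ⊆ S, ∑ s ∈ S, w s ≤ M ^ r * ∑ s ∈ E, w s ∧
      ∀ s ∈ E, ∀ s' ∈ E, ∀ i, |Int.fract (t s i) - Int.fract (t s' i)| ≤ 1 / M := by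
  classical
  have hM0 : (0 : ℝ) < M := by exact_mod_cast hM
  set φ : G → Fin r → ℕ := fun b j => ⌊M * Int.fract (t b j)⌋₊ with hφ
  obtain ⟨c, -, hc⟩ := exists_le_sum_fiber_of_maps_to_of_nsmul_le_sum (f := φ) (s := S) (w := w)
    (t := Fintype.piFinset fun _ : Fin r => range M) (b := (∑ s ∈ S, w s) / M ^ r)
    (fun b _ => Fintype.mem_piFinset.2 fun j => mem_range.2 (by
      refine (Nat.floor_lt (by have := Int.fract_nonneg (t b j); positivity)).2 ?_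
      exact mul_lt_of_lt_one_right hM0 (Int.fract_lt_one _)))
    ⟨fun _ => 0, Fintype.mem_piFinset.2 fun _ => mem_range.2 hM⟩ (le_of_eq (by
      simp only [Fintype.card_piFinset, card_range, prod_const, card_univ, Fintype.card_fin,
        nsmul_eq_mul]
      push_cast
      field_simp))
  rw [div_le_iff₀' (by positivity)] at hc
  refine ⟨S.filter fun b => φ b = c, filter_subset _ _, hc, fun s hs s' hs' i => ?_⟩
  have h : ⌊M * Int.fract (t s i)⌋₊ = ⌊M * Int.fract (t s' i)⌋₊ :=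
    congrFun ((mem_filter.1 hs).2.trans (mem_filter.1 hs').2.symm) i
  have h1 := Nat.floor_le (a := M * Int.fract (t s i))
    (by have := Int.fract_nonneg (t s i); positivity)
  have h2 := Nat.floor_le (a := M * Int.fract (t s' i))
    (by have := Int.fract_nonneg (t s' i); positivity)
  have h3 := Nat.lt_floor_add_one (M * Int.fract (t s i))
  have h4 := Nat.lt_floor_add_one (M * Int.fract (t s' i))
  rw [h] at h1 h3
  rw [le_div_iff₀ hM0, ← abs_of_pos hM0, ← abs_mul, abs_le]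
  constructor <;> linarith

variable {W : Type} [NormedAddCommGroup W] [NormedSpace ℝ W] {T : (n → ℝ) →ₗ[ℝ] W}

/-- most of the mass of a narrow Gaussian lies in a ball -/
theorem ball_mass (hT : Function.Injective T) {G : Matrix n n ℝ} (hG : G.PosDef) {δ : ℝ}
    (hδ : 0 < δ) (h : ∀ y, ((Fintype.card n : ℝ) + 2) * ‖T y‖ ^ 2 ≤ δ ^ 2 * qq G y) :
    15 / 16 * th G 0 ≤ ∑ u ∈ lb T δ, gs G (toR u) := by
  classical
  have h1 := tail_norm hG 0 (Fintype.card n + 2)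
  rw [← mul_assoc] at h1
  have h2 := h1.trans (mul_le_mul_of_nonneg_right (tailc _) (th_nonneg _ _))
  have s2 := (summable_ind (summable_gs hG 0)
    fun k => (Fintype.card n : ℝ) + 2 ≤ qq G (toR k - 0)).hasSum
  have s1 : HasSum (fun u : n → ℤ => if u ∈ lb T δ then gs G (toR u) else 0)
      (∑ u ∈ lb T δ, gs G (toR u)) := by
    have := hasSum_sum_of_ne_finset_zero (s := lb T δ) (L := SummationFilter.unconditional _)
      (f := fun u : n → ℤ => if u ∈ lb T δ then gs G (toR u) else 0) fun u hu => if_neg hu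
    rwa [sum_congr rfl fun u hu => if_pos hu] at this
  have h3 := hasSum_le (fun u => ?_) (hasSum_th hG 0) (s1.add s2)
  · linarith
  · simp only [sub_zero]
    have g0 := gs_pos G (toR u)
    by_cases hu : u ∈ lb T δ
    · rw [if_pos hu]
      split_ifs <;> linarith
    · rw [if_neg hu, if_pos, zero_add]
      rw [(bl_lb T hT).mem, not_le, ln] at hu
      have a1 : δ ^ 2 ≤ ‖T (toR u)‖ ^ 2 := pow_le_pow_left₀ hδ.le hu.le 2
      have a2 := (mul_le_mul_of_nonneg_left a1 (by positivity)).trans (h (toR u))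
      rw [mul_comm] at a2
      exact le_of_mul_le_mul_left a2 (by positivity)

/-- a set that is dense in a regular ball has a large weight for a narrow Gaussian -/
theorem gauss_out (hT : Function.Injective T) {G : Matrix n n ℝ} (hG : G.PosDef) {a δ K : ℝ}
    (hδ : 0 < δ) (ha : 0 ≤ a) (h : ∀ y, ((Fintype.card n : ℝ) + 2) * ‖T y‖ ^ 2 ≤ δ ^ 2 * qq G y)
    (S : Finset (n → ℤ)) (x : n → ℤ) (hS : ∀ s ∈ S, ‖T (zc (s - x))‖ ≤ a)
    (hc : (#(lb T (a + δ)) : ℝ) ≤ K * #S) :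
    ∃ x' : n → ℤ, 15 / 16 * th G 0 ≤ K * ∑ s ∈ S, gs G (toR s - toR x') := by
  have hB := bl_lb T hT
  have p1 := hB.card_pos (show 0 ≤ a + δ by linarith)
  have pS : (0 : ℝ) < #S := num_pos p1 (Nat.cast_nonneg _) hc
  have hK : 0 < K := num_pos p1 (not_lt.1 fun hK => by nlinarith) (hc.trans_eq (mul_comm _ _))
  have h1 := card_nsmul_le_sum S (fun s => ∑ x' ∈ tr (lb T) x (a + δ), gs G (toR s - toR x'))
    (15 / 16 * th G 0) fun s hs => by
      refine (ball_mass hT hG hδ h).trans ?_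
      have e : ∑ u ∈ lb T δ, gs G (toR u) =
          ∑ x' ∈ (lb T δ).image fun u => s - u, gs G (toR s - toR x') := by
        rw [sum_image fun a _ b _ e => sub_right_injective e]
        refine sum_congr rfl fun u _ => ?_
        congr 1
        funext i
        simp
      rw [e]
      refine sum_le_sum_of_subset_of_nonneg (fun y hy => ?_) fun _ _ _ => (gs_pos _ _).le
      obtain ⟨u, hu, rfl⟩ := mem_image.1 hy
      rw [hB.mem_tr, sub_right_comm]
      exact (hB.sz.sub _ _).trans (add_le_add (hS s hs) ((hB.mem _ _).1 hu))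
  rw [sum_comm, nsmul_eq_mul] at h1
  obtain ⟨x', -, hx'⟩ := exists_max_image (tr (lb T) x (a + δ))
    (fun x' => ∑ s ∈ S, gs G (toR s - toR x'))
    ⟨x, hB.mem_tr.2 (by rw [sub_self, hB.sz.zero]; linarith)⟩
  have h2 := sum_le_card_nsmul _ _ _ hx'
  rw [card_tr, nsmul_eq_mul] at h2
  refine ⟨x', le_of_mul_le_mul_left ((h1.trans h2).trans ?_) pS⟩
  rw [← mul_assoc, mul_comm (#S : ℝ)]
  exact mul_le_mul_of_nonneg_right hc (sum_nonneg fun _ _ => (gs_pos _ _).le)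

/-- the weight of the new coordinates -/
def aw {r : ℕ} (θ : Fin r → n → ℝ) (τ : ℝ) (c : Fin r → ℝ) (s : n → ℤ) (m : Fin r → ℤ) : ℝ :=
  Real.exp (-(π * ∑ i, ((θ i ⬝ᵥ zc s - m i - c i) / τ) ^ 2))

open Classical in
/-- the affine piece has a large weight for the extended narrow Gaussian -/
theorem Ch.gauss {κ W' : Type} [Fintype κ] [NormedAddCommGroup W'] [NormedSpace ℝ W']
    {T' : (κ → ℝ) →ₗ[ℝ] W'} {g : (n → ℤ) → κ → ℝ} {S : Finset (n → ℤ)} {r : ℕ}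
    {θ : Fin r → n → ℝ} {F1 : (n → ℝ) →ₗ[ℝ] (κ → ℝ)} {F2 : (Fin r → ℝ) →ₗ[ℝ] (κ → ℝ)}
    {a0 τ0 ε K τ : ℝ} (hch : Ch T T' g S θ F1 F2 a0 τ0 ε) (hT : Function.Injective T)
    (ha0 : 0 < a0) (hK : ∀ a, 0 ≤ a → a ≤ a0 → ∃ x,
      (#(lb T a) : ℝ) ≤ K * #{s ∈ S | ‖T (zc (s - x))‖ ≤ a})
    {G : Matrix n n ℝ} (hG : G.PosDef) (h : ∀ y, ((Fintype.card n : ℝ) + 2) *
      (12 * Fintype.card n + 4) ^ 2 * ‖T y‖ ^ 2 ≤ a0 ^ 2 * qq G y)
    (hτ : 0 < τ) (hτ0 : τ ≤ τ0) (hτ1 : τ ≤ 1) :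
    ∃ E ⊆ S, ∃ (x : n → ℤ) (c' : Fin r → ℝ) (c : κ → ℝ),
      th G 0 * τ ^ r ≤ 5 * K * (3 * r + 4) ^ r *
        ∑ s ∈ E, gs G (toR s - toR x) * aw θ τ c' s (fl θ s) ∧
      ∀ s ∈ E, Cz T' ε (g s - F1 (zc s) - F2 (zc (fl θ s)) - c) := by
  have hB := bl_lb T hT
  have hD0 : (0 : ℝ) ≤ Fintype.card n := Nat.cast_nonneg _
  have hr0 : (0 : ℝ) ≤ r := Nat.cast_nonneg _
  set δ := a0 / (12 * Fintype.card n + 4) with hδ
  have hδ0 : 0 < δ := by positivity
  obtain ⟨a, h1, h2, h3⟩ := hB.reg2 hδ0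
  have h4 : a + δ ≤ a0 / 2 := h2.trans_eq (by rw [hδ]; field_simp; ring)
  obtain ⟨x0, hx0⟩ := hK a (by linarith) (by linarith)
  obtain ⟨x, hx⟩ := gauss_out hT hG hδ0 (show 0 ≤ a by linarith) (K := 2 * K) (fun y => by
      rw [hδ, div_pow, div_mul_eq_mul_div, le_div_iff₀ (by positivity), mul_right_comm]
      exact h y) _ x0 (fun s hs => (mem_filter.1 hs).2) (by linarith)
  have hK0 : 0 < K := num_pos (hB.card_pos (show 0 ≤ a by linarith))
    (not_lt.1 fun hK => by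
      have := hB.card_pos (show 0 ≤ a by linarith)
      have := mul_nonpos_of_nonpos_of_nonneg hK.le
        (Nat.cast_nonneg (α := ℝ) #{s ∈ S | ‖T (zc (s - x0))‖ ≤ a})
      linarith) (hx0.trans_eq (mul_comm _ _))
  set M := ⌈(3 * r + 3) / τ⌉₊ with hM
  have hM1 : (3 * r + 3) / τ ≤ M := Nat.le_ceil _
  have hM2 : (M : ℝ) < (3 * r + 3) / τ + 1 := Nat.ceil_lt_add_one (by positivity)
  have hM0 : 1 ≤ M := Nat.ceil_pos.2 (by positivity)
  have hMp : (0 : ℝ) < M := by exact_mod_cast hM0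
  rw [div_le_iff₀ hτ] at hM1
  have hM3 : (M : ℝ) * τ ≤ 3 * r + 4 := by
    have := mul_le_mul_of_nonneg_right hM2.le hτ.le
    rw [add_mul, div_mul_cancel₀ _ hτ.ne'] at this
    linarith
  have hM4 : 1 / (M : ℝ) ≤ τ / (3 * r + 3) := by
    rw [div_le_div_iff₀ hMp (by positivity)]
    linarith
  obtain ⟨E, hE, cE, hA⟩ := arcs_w {s ∈ S | ‖T (zc (s - x0))‖ ≤ a}
    (fun s => gs G (toR s - toR x)) (fun s i => θ i ⬝ᵥ zc s) hM0
  have hES : E ⊆ S := hE.trans (filter_subset _ _)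
  obtain ⟨c, hc⟩ := hch.affine hES (x := x0)
    (fun s hs => (mem_filter.1 (hE hs)).2.trans (by linarith)) fun s hs s' hs' i =>
      (hA s hs s' hs' i).trans (hM4.trans ((div_le_self hτ.le (by linarith)).trans hτ0))
  have hth := th_pos hG 0
  obtain ⟨s0, hs0⟩ : E.Nonempty := by
    rw [nonempty_iff_ne_empty]
    rintro rfl
    rw [sum_empty, mul_zero] at cE
    nlinarith
  refine ⟨E, hES, x, fun i => Int.fract (θ i ⬝ᵥ zc s0), c, ?_, hc⟩
  have h5 : ∀ s ∈ E, 1 / 2 ≤ aw θ τ (fun i => Int.fract (θ i ⬝ᵥ zc s0)) s (fl θ s) := by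
    intro s hs
    have a1 : ∑ i, ((θ i ⬝ᵥ zc s - fl θ s i - Int.fract (θ i ⬝ᵥ zc s0)) / τ) ^ 2 ≤ 1 / 9 := by
      refine (sum_le_card_nsmul _ _ ((1 / (3 * (r : ℝ) + 3)) ^ 2) fun i _ => ?_).trans ?_
      · rw [← sq_abs, abs_div, abs_of_pos hτ]
        refine pow_le_pow_left₀ (by positivity) ?_ 2
        rw [div_le_iff₀ hτ, one_div_mul_eq_div]
        exact (hA s hs s0 hs0 i).trans hM4
      · simp only [card_univ, Fintype.card_fin, nsmul_eq_mul]
        rw [div_pow, mul_div, div_le_div_iff₀ (by positivity) (by norm_num)]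
        nlinarith
    unfold aw
    have a2 := Real.add_one_le_exp
      (-(π * ∑ i, ((θ i ⬝ᵥ zc s - fl θ s i - Int.fract (θ i ⬝ᵥ zc s0)) / τ) ^ 2))
    have a3 := mul_le_mul_of_nonneg_left a1 Real.pi_pos.le
    linarith [Real.pi_lt_d2]
  have h6 : ∑ s ∈ E, gs G (toR s - toR x) ≤
      2 * ∑ s ∈ E, gs G (toR s - toR x) * aw θ τ (fun i => Int.fract (θ i ⬝ᵥ zc s0)) s (fl θ s) := by
    rw [mul_sum]
    refine sum_le_sum fun s hs => ?_
    have := mul_le_mul_of_nonneg_left (h5 s hs) (gs_pos G (toR s - toR x)).le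
    linarith
  set A := ∑ s ∈ E, gs G (toR s - toR x) * aw θ τ (fun i => Int.fract (θ i ⬝ᵥ zc s0)) s (fl θ s)
  have hA0 : 0 ≤ A := by
    have := sum_nonneg fun s (_ : s ∈ E) => (gs_pos G (toR s - toR x)).le
    linarith
  have h7 : th G 0 ≤ 5 * K * M ^ r * A := by
    have a1 := mul_le_mul_of_nonneg_left (cE.trans (mul_le_mul_of_nonneg_left h6
      (by positivity))) (show 0 ≤ 2 * K by positivity)
    have a2 : 0 ≤ K * M ^ r * A := by positivity
    linarith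
  calc th G 0 * τ ^ r ≤ 5 * K * M ^ r * A * τ ^ r := by gcongr
    _ = 5 * K * (M * τ) ^ r * A := by rw [mul_pow]; ring
    _ ≤ _ := by gcongr

theorem num_g {X : ℝ} {r : ℕ} (hX0 : 100 ≤ X) (s3 : (r : ℝ) ≤ X ^ 7) :
    5 * Real.exp (X ^ 2) * (3 * (r : ℝ) + 4) ^ r ≤ Real.exp (X ^ 9) := by
  have e1 := Real.add_one_le_exp X
  have b1 : 3 * (r : ℝ) + 4 ≤ Real.exp (X ^ 2 / 2) := by
    have c1 := P057Z.Km.Apb.pow_le (X ^ 2 / 2) (by positivity) 5
    rw [show ((Nat.factorial 5 : ℕ) : ℝ) = 120 by norm_num [Nat.factorial]] at c1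
    have c2 : (100 : ℝ) ^ 3 * X ^ 7 ≤ X ^ 3 * X ^ 7 := by gcongr
    have c3 : (1 : ℝ) ≤ X ^ 7 := one_le_pow₀ (by linarith)
    nlinarith
  have b2 : (3 * (r : ℝ) + 4) ^ r ≤ Real.exp (X ^ 9 / 2) := by
    refine (pow_le_pow_left₀ (by positivity) b1 r).trans ?_
    rw [← Real.exp_nat_mul]
    refine Real.exp_le_exp.2 ((mul_le_mul_of_nonneg_right s3 (by positivity)).trans_eq (by ring))
  have b3 : 5 * Real.exp (X ^ 2) ≤ Real.exp (X ^ 9 / 2) := by
    refine le_trans ?_ (Real.exp_le_exp.2 (show X + X ^ 2 ≤ X ^ 9 / 2 by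
      have c2 : (100 : ℝ) ^ 7 * X ^ 2 ≤ X ^ 7 * X ^ 2 := by gcongr
      nlinarith))
    rw [Real.exp_add]
    exact mul_le_mul_of_nonneg_right (by linarith) (Real.exp_pos _).le
  refine (mul_le_mul b3 b2 (by positivity) (Real.exp_pos _).le).trans_eq ?_
  rw [← Real.exp_add, add_halves]

theorem num_h {X D : ℝ} (hX0 : 100 ≤ X) (hD0 : 0 ≤ D) (a2 : 12 * D + 4 ≤ Real.exp (2 * X)) :
    (D + 2) * (12 * D + 4) ^ 2 ≤ Real.exp (-(2 * X ^ 2)) ^ 2 * Real.exp (5 * X ^ 2) ∧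
      Real.exp (-X ^ 2) ≤ 1 / (3 * (6 * D + 2)) / (6 * D + 2) := by
  constructor
  · calc (D + 2) * (12 * D + 4) ^ 2 ≤ Real.exp (2 * X) * Real.exp (2 * X) ^ 2 := by
          gcongr
          linarith
      _ ≤ _ := by
          simp only [← Real.exp_nat_mul, ← Real.exp_add]
          refine Real.exp_le_exp.2 ?_
          push_cast
          nlinarith
  · rw [div_div, Real.exp_neg, ← one_div]
    refine one_div_le_one_div_of_le (by positivity) (le_trans ?_ (Real.exp_le_exp.2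
      (show 2 * X + 2 * X ≤ X ^ 2 by nlinarith)))
    rw [Real.exp_add]
    refine le_trans ?_ (mul_le_mul a2 a2 (by positivity) (Real.exp_pos _).le)
    nlinarith

open Classical in
/-- the theorem of Freiman in a normed torus for two Gaussian laws -/
theorem frt_gauss : ∃ X0 : ℝ, ∀ X : ℝ, X0 ≤ X →
    ∀ (n κ W W' : Type) [Fintype n] [DecidableEq n] [Fintype κ] [DecidableEq κ]
      [NormedAddCommGroup W] [NormedSpace ℝ W] [NormedAddCommGroup W'] [NormedSpace ℝ W']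
      (T : (n → ℝ) →ₗ[ℝ] W) (T' : (κ → ℝ) →ₗ[ℝ] W') (f g ζ : (n → ℤ) → κ → ℝ)
      (rel : (n → ℤ) → (n → ℤ) → Prop) (G1 G2 : Matrix n n ℝ) (c1 c2 : n → ℝ) (ρ : ℝ),
      Function.Injective T → Function.Injective T' → (Fintype.card n : ℝ) ≤ Real.exp X →
      (Fintype.card κ : ℝ) ≤ Real.exp X → 0 < ρ → G1.PosDef → G2.PosDef →
      (∀ y, qq G1 y ≤ ‖T y‖ ^ 2) → (∀ y, qq G2 y ≤ ‖T y‖ ^ 2) →
      (∀ k : κ → ℤ, ‖T' (zc k)‖ ≤ Real.exp (X ^ 2) * ρ → k = 0) →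
      (∀ a b, rel a b → Cz T' ρ (f a + g b - ζ (a + b))) →
      9 * (th G1 c1 * th G2 c2) ≤ Real.exp X *
        ∑' a, gs G1 (toR a - c1) * ∑' b, gs G2 (toR b - c2) * (if rel a b then 1 else 0) →
      ∃ (S : Finset (n → ℤ)) (r : ℕ) (θ : Fin r → n → ℝ) (F1 : (n → ℝ) →ₗ[ℝ] (κ → ℝ))
        (F2 : (Fin r → ℝ) →ₗ[ℝ] (κ → ℝ)), (∀ s ∈ S, ∃ a, rel a s) ∧ (r : ℝ) ≤ X ^ 7 ∧
        (∀ z ∈ Rel g S 6, Cz T' (Real.exp (X ^ 2) * ρ) z) ∧
        Ch T T' g S θ F1 F2 (Real.exp (-(2 * X ^ 2))) (Real.exp (-X ^ 2)) (Real.exp (X ^ 2) * ρ) ∧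
        (∀ a, 0 ≤ a → a ≤ Real.exp (-(2 * X ^ 2)) → ∃ x,
          (#(lb T a) : ℝ) ≤ Real.exp (X ^ 2) * #{s ∈ S | ‖T (zc (s - x))‖ ≤ a}) ∧
        ∀ (G : Matrix n n ℝ) (τ : ℝ), G.PosDef → (∀ y, Real.exp (5 * X ^ 2) * ‖T y‖ ^ 2 ≤ qq G y) →
          0 < τ → τ ≤ Real.exp (-X ^ 2) → ∃ E ⊆ S, ∃ (x : n → ℤ) (c' : Fin r → ℝ) (c : κ → ℝ),
            th G 0 * τ ^ r ≤ Real.exp (X ^ 9) *
              ∑ s ∈ E, gs G (toR s - toR x) * aw θ τ c' s (fl θ s) ∧
            ∀ s ∈ E, Cz T' (Real.exp (X ^ 2) * ρ) (g s - F1 (zc s) - F2 (zc (fl θ s)) - c) := by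
  obtain ⟨X0, hb⟩ := frt
  refine ⟨max X0 100, fun X hX n κ W W' _ _ _ _ _ _ _ _ T T' f g ζ rel G1 G2 c1 c2 ρ hT hT' hn hκ
    hρ h1 h2 q1 q2 hΓ hr hc => ?_⟩
  have hX0 : 100 ≤ X := (le_max_right _ _).trans hX
  have hB := bl_lb T hT
  have e1 := Real.add_one_le_exp X
  have pe := Real.exp_pos X
  have hD0 : (0 : ℝ) ≤ Fintype.card n := Nat.cast_nonneg _
  have a2 : 12 * (Fintype.card n : ℝ) + 4 ≤ Real.exp (2 * X) := by rw [exp_two]; nlinarith
  set δ1 : ℝ := 1 / (3 * (6 * Fintype.card n + 2)) with hδ1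
  set δ2 : ℝ := δ1 / (6 * Fintype.card n + 2) with hδ2
  have p1 : 0 < δ1 := by positivity
  have p2 : 0 < δ2 := by positivity
  obtain ⟨R1, k1, k2, k3⟩ := hB.reg2 p1
  obtain ⟨R2, l1, l2, l3⟩ := hB.reg2 p2
  have k4 : R1 + δ1 ≤ 1 / 3 := k2.trans_eq (by rw [hδ1]; field_simp)
  have l4 : R2 + δ2 ≤ δ1 := l2.trans_eq (by rw [hδ2]; field_simp)
  have hq : ∀ (G : Matrix n n ℝ) (R : ℝ), (∀ y, qq G y ≤ ‖T y‖ ^ 2) → R ≤ 1 / 3 →
      ∀ u ∈ lb T R, qq G (toR u) ≤ 1 / 9 := fun G R hG hR u hu => (hG _).trans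
    ((pow_le_pow_left₀ (norm_nonneg _) (((hB.mem _ _).1 hu).trans hR) 2).trans_eq (by norm_num))
  have hs : ∀ R, ∀ u ∈ lb T R, -u ∈ lb T R := fun R u hu => by
    rwa [hB.mem, hB.sz.neg, ← hB.mem]
  obtain ⟨x1, x2, hx⟩ := gauss_in h1 h2 c1 c2 (lb T R1) (lb T R2) (hs _) (hs _)
    (hq G1 R1 q1 (by linarith)) (hq G2 R2 q2 (by linarith)) ⟨0, hB.zero_mem (by linarith)⟩
    ⟨0, hB.zero_mem (by linarith)⟩ rel (β := 9 / Real.exp X) (by positivity)
    (by rwa [div_mul_eq_mul_div, div_le_iff₀' pe])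
  have hR : Real.exp (-(2 * X ^ 2)) ≤ δ2 * Real.exp (-X ^ 2) := by
    rw [show -(2 * X ^ 2) = -X ^ 2 + -X ^ 2 by ring, Real.exp_add]
    exact mul_le_mul_of_nonneg_right (num_h hX0 hD0 a2).2 (Real.exp_pos _).le
  obtain ⟨S, r, θ, F1, F2, -, s2, s3, s4, s5, s6⟩ := hb X ((le_max_left _ _).trans hX) n κ W W' T T'
    f g ζ rel (tr (lb T) x1 R1) (tr (lb T) x2 R2) (tr (lb T) (x1 + x2) (R1 + δ1))
    (tr (lb T) x2 (R2 + δ2)) δ2 ρ hT hT' hn hκ p2 hρ
    ⟨x1, hB.mem_tr.2 (by rw [sub_self, hB.sz.zero]; linarith)⟩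
    ⟨x2, hB.mem_tr.2 (by rw [sub_self, hB.sz.zero]; linarith)⟩ hΓ hr
    (by
      rw [card_tr, card_tr, ← div_le_iff₀' pe]
      refine le_trans (le_of_eq (by ring)) (hx.trans_eq ?_)
      unfold tr
      exact congrArg (fun s : Finset _ => (s.card : ℝ))
        (Finset.ext fun p => by simp only [mem_filter, mem_product, mem_image]))
    (fun a ha b hb => hB.mem_tr.2 (by
      rw [add_sub_add_comm]
      exact (hB.sz.add _ _).trans (add_le_add (hB.mem_tr.1 ha) ((hB.mem_tr.1 hb).trans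
        (by linarith)))))
    (by
      rw [card_tr, card_tr]
      exact k3.trans (mul_le_mul_of_nonneg_right (by linarith) (Nat.cast_nonneg _)))
    (fun b hb u hu => hB.mem_tr.2 (by
      rw [add_sub_right_comm]
      exact (hB.sz.add _ _).trans (add_le_add (hB.mem_tr.1 hb) hu)))
    (by
      rw [card_tr, card_tr]
      exact l3.trans (mul_le_mul_of_nonneg_right (by linarith) (Nat.cast_nonneg _)))
  have s7 := s5.mono hR le_rfl le_rfl
  have s8 := fun a ha ha' => s6 a ha (le_trans ha' hR)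
  refine ⟨S, r, θ, F1, F2, s2, s3, s4, s7, s8, fun G τ hG hGT hτ hτ0 => ?_⟩
  obtain ⟨E, hE, x, c', c, t1, t2⟩ := s7.gauss hT (Real.exp_pos _) s8 hG (fun y => by
      refine le_trans ?_ (mul_le_mul_of_nonneg_left (hGT y) (sq_nonneg _))
      rw [← mul_assoc]
      exact mul_le_mul_of_nonneg_right (num_h hX0 hD0 a2).1 (sq_nonneg _)) hτ hτ0 (hτ0.trans (Real.exp_le_one_iff.2 (neg_nonpos.2 (sq_nonneg X))))
  refine ⟨E, hE, x, c', c, t1.trans (mul_le_mul_of_nonneg_right ?_ (sum_nonneg fun s _ =>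
    mul_nonneg (gs_pos _ _).le (Real.exp_pos _).le)), t2⟩
  exact num_g hX0 s3

end

end Vale.Agent.P057FT
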