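import Vale.Agent.P057FT.Ball
import Vale.Agent.P057G.Sq

/-! Characters with a small dual norm separate the points far from the integer lattice. -/

set_option linter.all false

open Finset Matrix
open scoped BigOperators Real

namespace Vale.Agent.P057FT

open Vale.Agent.P057HU Vale.Agent.P057G Vale.Agent.P267.H775

noncomputable section

variable {κ W : Type} [Fintype κ] [NormedAddCommGroup W] [NormedSpace ℝ W]

/-- `t` is at distance at least one tenth from the integers -/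
def Far (t : ℝ) : Prop := ∀ j : ℤ, 1 / 10 ≤ |t - j|

theorem tailc (m : ℕ) : Real.exp (-(π * ((m : ℝ) + 2) / 2)) * √2 ^ m ≤ 1 / 16 := by
  have h5 : Real.exp (-(π / 2)) ≤ 1 / 4 := by
    rw [Real.exp_neg, inv_le_comm₀ (Real.exp_pos _) (by norm_num)]
    have := Real.quadratic_le_exp_of_nonneg (x := π / 4) (by positivity)
    have e : Real.exp (π / 2) = Real.exp (π / 4) ^ 2 := by
      rw [← Real.exp_nat_mul]; congr 1; push_cast; ring
    have h6 : 2 ≤ Real.exp (π / 4) := by nlinarith [Real.pi_gt_three]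
    rw [e]; nlinarith
  have e : Real.exp (-(π * ((m : ℝ) + 2) / 2)) =
      Real.exp (-(π / 2)) ^ m * Real.exp (-(π / 2)) ^ 2 := by
    rw [← Real.exp_nat_mul, ← Real.exp_nat_mul, ← Real.exp_add]; congr 1; push_cast; ring
  rw [e, mul_right_comm, ← mul_pow]
  have h7 : √2 ≤ 2 := Real.sqrt_le_iff.mpr ⟨by norm_num, by norm_num⟩
  have h0 := Real.exp_pos (-(π / 2))
  have h8 : (Real.exp (-(π / 2)) * √2) ^ m ≤ 1 :=
    pow_le_one₀ (by positivity) (by nlinarith [Real.sqrt_nonneg 2])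
  have h9 : 0 ≤ (Real.exp (-(π / 2)) * √2) ^ m := by positivity
  have h10 : Real.exp (-(π / 2)) ^ 2 ≤ 1 / 16 := by nlinarith
  nlinarith

open Classical in
theorem cos_ge (t : ℝ) : 4 / 5 - 2 * (if Far t then 1 else 0) ≤ Real.cos (2 * π * t) := by
  split_ifs with h
  · linarith [Real.neg_one_le_cos (2 * π * t)]
  · unfold Far at h
    push Not at h
    obtain ⟨j, hj⟩ := h
    have e : Real.cos (2 * π * t) = Real.cos (2 * π * (t - j)) := by
      rw [show 2 * π * (t - j) = 2 * π * t - j * (2 * π) by ring, Real.cos_sub_int_mul_two_pi]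
    rw [e]
    have h1 := Real.one_sub_sq_div_two_le_cos (x := 2 * π * (t - j))
    have h2 : (t - j) ^ 2 ≤ 1 / 100 := by
      have := abs_lt.1 hj
      nlinarith
    have h3 : π ^ 2 ≤ 10 := by nlinarith [Real.pi_lt_d2, Real.pi_pos]
    have h4 : (2 * π * (t - j)) ^ 2 = 4 * (π ^ 2 * (t - j) ^ 2) := by ring
    have h5 : π ^ 2 * (t - j) ^ 2 ≤ 10 * (1 / 100) :=
      mul_le_mul h3 h2 (sq_nonneg _) (by norm_num)
    linarith

variable [DecidableEq κ]

open Classical in
/-- one far point -/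
theorem far_weight {G : Matrix κ κ ℝ} (hG : G.PosDef) (y : κ → ℝ)
    (hy : ∀ k : κ → ℤ, (Fintype.card κ : ℝ) + 2 ≤ qq G (toR k - y)) :
    3 / 10 * th G⁻¹ 0 ≤ ∑' k : κ → ℤ,
      if qq G⁻¹ (toR k) ≤ Fintype.card κ + 2 ∧ Far (toR k ⬝ᵥ y) then gs G⁻¹ (toR k - 0) else 0 := by
  have hs := summable_gs hG.inv 0
  have hv := vol_pos hG
  have h1 := tail_norm hG y (Fintype.card κ + 2)
  simp only [hy, if_true] at h1
  rw [← mul_assoc] at h1
  have h2 : th G y ≤ 1 / 16 * th G 0 :=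
    h1.trans (mul_le_mul_of_nonneg_right (tailc _) (th_nonneg _ _))
  have h3 := tail_norm hG.inv 0 (Fintype.card κ + 2)
  rw [← mul_assoc] at h3
  have h4 := h3.trans (mul_le_mul_of_nonneg_right (tailc _) (th_nonneg _ _))
  have s1 := (summable_ind hs fun k =>
    qq G⁻¹ (toR k) ≤ Fintype.card κ + 2 ∧ Far (toR k ⬝ᵥ y)).hasSum
  have s2 := (summable_ind hs fun k => (Fintype.card κ : ℝ) + 2 ≤ qq G⁻¹ (toR k - 0)).hasSum
  have s3 := hasSum_th hG.inv 0
  have s4 := poisson_re hG y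
  have h5 := hasSum_le (fun k => ?_)
    (((s3.mul_left (4 / 5)).sub ((s1.add s2).mul_left 2)).mul_left (vol G)) s4
  · rw [th_zero_eq hG] at h2
    have h6 := h5.trans h2
    rw [mul_left_comm] at h6
    have h7 := le_of_mul_le_mul_left h6 hv
    have h8 := th_nonneg G⁻¹ 0
    linarith
  · rw [mul_assoc]
    refine mul_le_mul_of_nonneg_left ?_ hv.le
    have g0 := gs_pos G⁻¹ (toR k)
    have c := mul_le_mul_of_nonneg_left (cos_ge (toR k ⬝ᵥ y)) g0.le
    simp only [sub_zero]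
    refine le_trans ?_ c
    by_cases hf : Far (toR k ⬝ᵥ y)
    · by_cases hq : qq G⁻¹ (toR k) ≤ Fintype.card κ + 2
      · simp only [hf, hq, and_self, if_true]
        split_ifs <;> linarith
      · simp only [hf, hq, false_and, if_true, if_false, (not_le.1 hq).le]
        linarith
    · simp only [hf, and_false, if_false]
      split_ifs <;> linarith

open Classical in
/-- one character for many far points -/
theorem sep_gram {G : Matrix κ κ ℝ} (hG : G.PosDef) {α : Type} (L : Finset α) (v : α → κ → ℝ)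
    (hv : ∀ l ∈ L, ∀ k : κ → ℤ, (Fintype.card κ : ℝ) + 2 ≤ qq G (toR k - v l)) :
    ∃ k : κ → ℤ, qq G⁻¹ (toR k) ≤ Fintype.card κ + 2 ∧
      L.card ≤ 4 * (L.filter fun l => Far (toR k ⬝ᵥ v l)).card := by
  by_contra hno
  push Not at hno
  have hs := summable_gs hG.inv 0
  have h0 : 0 < L.card := lt_of_le_of_lt (Nat.zero_le _) (hno 0 (by
    rw [toR_zero, qq_zero]; positivity))
  have h1 := hasSum_sum (s := L) fun l _ => (summable_ind hs fun k =>
    qq G⁻¹ (toR k) ≤ Fintype.card κ + 2 ∧ Far (toR k ⬝ᵥ v l)).hasSum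
  have h2 := hasSum_le (fun k => ?_) h1 ((hasSum_th hG.inv 0).mul_left ((L.card : ℝ) / 4))
  · have h3 := card_nsmul_le_sum L _ _ fun l hl => far_weight hG (v l) (hv l hl)
    rw [nsmul_eq_mul] at h3
    have h4 := th_pos hG.inv 0
    have h5 : (0 : ℝ) < L.card := by exact_mod_cast h0
    have h6 := mul_pos h5 h4
    linarith
  · have g0 := gs_pos G⁻¹ (toR k - 0)
    by_cases hq : qq G⁻¹ (toR k) ≤ Fintype.card κ + 2
    · simp only [hq, true_and]
      rw [← sum_filter, sum_const, nsmul_eq_mul]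
      refine mul_le_mul_of_nonneg_right ?_ g0.le
      have : ((4 * (L.filter fun l => Far (toR k ⬝ᵥ v l)).card : ℕ) : ℝ) ≤ L.card := by
        exact_mod_cast (hno k hq).le
      push_cast at this
      linarith
    · simp only [hq, false_and, if_false, sum_const_zero]
      positivity

/-- every norm is close to a Euclidean norm -/
theorem exists_gram (T : (κ → ℝ) →ₗ[ℝ] W) (hT : Function.Injective T) :
    ∃ H : Matrix κ κ ℝ, H.PosDef ∧ ∀ y, qq H y ≤ Fintype.card κ * ‖T y‖ ^ 2 ∧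
      ‖T y‖ ^ 2 ≤ Fintype.card κ * qq H y := by
  obtain ⟨K, -, hK⟩ := T.exists_antilipschitzWith (LinearMap.ker_eq_bot.mpr hT)
  have hc : Continuous T := T.continuous_of_finiteDimensional
  set C : Set (κ → ℝ) := {u | ‖T u‖ ≤ 1} with hC
  have hCc : IsCompact C := by
    refine Metric.isCompact_of_isClosed_isBounded (isClosed_le hc.norm continuous_const) ?_
    refine (Metric.isBounded_closedBall (x := (0 : κ → ℝ)) (r := K)).subset fun u hu => ?_
    have h1 := hK.le_mul_dist u 0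
    rw [map_zero, dist_zero_right (T u)] at h1
    exact h1.trans (mul_le_of_le_one_right K.2 hu)
  have hP : IsCompact (Set.univ.pi fun _ : κ => C) := isCompact_univ_pi fun _ => hCc
  have hcont : Continuous fun u : κ → κ → ℝ => |(Matrix.of u).det| :=
    (Continuous.matrix_det (A := fun u : κ → κ → ℝ => Matrix.of u) continuous_id).abs
  obtain ⟨u, hu, hmax⟩ := hP.exists_isMaxOn ⟨fun _ => 0, fun i _ => by simp [hC]⟩
    hcont.continuousOn
  have hu' : ∀ i, ‖T (u i)‖ ≤ 1 := fun i => hu i trivial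
  have hdet : (Matrix.of u).det ≠ 0 := by
    set c : ℝ := (1 + ∑ i : κ, ‖T (Pi.single i 1)‖)⁻¹ with hcdef
    have hs : 0 ≤ ∑ i : κ, ‖T (Pi.single i 1)‖ := sum_nonneg fun i _ => norm_nonneg _
    have hc0 : 0 < c := by positivity
    have h1 := hmax (a := fun i => c • Pi.single i (1 : ℝ)) fun i _ => by
      show ‖T (c • Pi.single i (1 : ℝ))‖ ≤ 1
      rw [map_smul, norm_smul, Real.norm_of_nonneg hc0.le, hcdef, ← div_eq_inv_mul,
        div_le_one (by positivity)]
      have := single_le_sum (f := fun i : κ => ‖T (Pi.single i 1)‖)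
        (fun i _ => norm_nonneg _) (mem_univ i)
      linarith
    have h2 : (Matrix.of fun i : κ => c • Pi.single i (1 : ℝ)) = c • (1 : Matrix κ κ ℝ) := by
      ext i j
      simp [Matrix.one_apply, Pi.single_apply, eq_comm]
    simp only [Set.mem_ofPred_eq] at h1
    rw [h2, det_smul, det_one, mul_one, abs_of_pos (by positivity)] at h1
    intro h3
    rw [h3, abs_zero] at h1
    exact absurd h1 (not_le.2 (by positivity))
  set U : Matrix κ κ ℝ := (Matrix.of u)ᵀ with hU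
  have hUd : U.det ≠ 0 := by rwa [hU, det_transpose]
  have hUu : IsUnit U.det := isUnit_iff_ne_zero.2 hUd
  have k1 : ∀ y, ‖T y‖ ≤ 1 → ∀ i, |(U⁻¹ *ᵥ y) i| ≤ 1 := by
    intro y hy i
    have h1 := congrFun (det_smul_inv_mulVec_eq_cramer U y hUu) i
    rw [cramer_apply, Pi.smul_apply, smul_eq_mul] at h1
    have h2 := hmax (a := Function.update u i y) fun j _ => by
      by_cases hj : j = i
      · subst hj
        rw [Function.update_self]
        exact hy
      · rw [Function.update_of_ne hj]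
        exact hu' j
    simp only [Set.mem_ofPred_eq] at h2
    have h3 : Matrix.of (Function.update u i y) = (U.updateCol i y)ᵀ := by
      rw [hU, updateCol_transpose, transpose_transpose]
      rfl
    rw [h3, det_transpose, ← h1, abs_mul, ← det_transpose (Matrix.of u), ← hU] at h2
    exact (mul_le_iff_le_one_right (abs_pos.2 hUd)).1 h2
  have k2 : ∀ y i, |(U⁻¹ *ᵥ y) i| ≤ ‖T y‖ := by
    intro y i
    by_cases hy : y = 0
    · simp [hy]
    have hp : 0 < ‖T y‖ := norm_pos_iff.2 fun h => hy (hT (by rw [h, map_zero]))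
    have := k1 (‖T y‖⁻¹ • y) (by
      rw [map_smul, norm_smul, norm_inv, norm_norm, inv_mul_cancel₀ hp.ne']) i
    rw [mulVec_smul, Pi.smul_apply, smul_eq_mul, abs_mul, abs_inv, abs_norm, ← div_eq_inv_mul,
      div_le_one hp] at this
    exact this
  refine ⟨(U⁻¹)ᵀ * U⁻¹, ?_, fun y => ⟨?_, ?_⟩⟩
  · have := posDef_conj (PosDef.one (n := κ) (R := ℝ)) U⁻¹ (mulVec_injective_iff_isUnit.2
      ((isUnit_iff_isUnit_det _).2 (isUnit_nonsing_inv_det U hUu)))
    rwa [Matrix.mul_one] at this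
  · rw [qq_mul]
    refine (sum_le_card_nsmul _ _ (‖T y‖ ^ 2) fun i _ => ?_).trans_eq (by simp)
    rw [← sq_abs]
    exact pow_le_pow_left₀ (abs_nonneg _) (k2 y i) 2
  · rw [qq_mul]
    have e : y = ∑ i, (U⁻¹ *ᵥ y) i • u i := by
      have h1 : U *ᵥ (U⁻¹ *ᵥ y) = y := by rw [mulVec_mulVec, mul_nonsing_inv _ hUu, one_mulVec]
      funext j
      rw [Finset.sum_apply]
      refine (congrFun h1 j).symm.trans ?_
      simp only [mulVec, dotProduct, hU, transpose_apply, of_apply, Pi.smul_apply, smul_eq_mul]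
      exact sum_congr rfl fun i _ => mul_comm _ _
    have h1 : ‖T y‖ ≤ ∑ i, |(U⁻¹ *ᵥ y) i| := by
      conv_lhs => rw [e, map_sum]
      refine (norm_sum_le _ _).trans (sum_le_sum fun i _ => ?_)
      rw [map_smul, norm_smul, Real.norm_eq_abs]
      exact mul_le_of_le_one_right (abs_nonneg _) (hu' i)
    refine (pow_le_pow_left₀ (norm_nonneg _) h1 2).trans (sq_sum_le_card_mul_sum_sq.trans_eq ?_)
    simp only [sq_abs, card_univ]

open Classical in
/-- one character for many far points, any norm -/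
theorem sep_one (T : (κ → ℝ) →ₗ[ℝ] W) (hT : Function.Injective T) {R : ℝ} (hR : 0 < R) {α : Type}
    (L : Finset α) (v : α → κ → ℝ) (hv : ∀ l ∈ L, ∀ k : κ → ℤ, R ≤ ‖T (v l - zc k)‖) :
    ∃ k : κ → ℤ, (∀ y, |zc k ⬝ᵥ y| * R ≤ ((Fintype.card κ : ℝ) + 2) ^ 2 * ‖T y‖) ∧
      L.card ≤ 4 * (L.filter fun l => Far (zc k ⬝ᵥ v l)).card := by
  obtain ⟨H, hH, h⟩ := exists_gram T hT
  set m : ℝ := (Fintype.card κ : ℝ) with hm
  have hm0 : 0 ≤ m := Nat.cast_nonneg _
  have hc : 0 < (m + 1) * (m + 2) / R ^ 2 := by positivity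
  have hG := hH.smul hc
  obtain ⟨k, hk, hL⟩ := sep_gram hG L v fun l hl k => by
    rw [qq_smul_mat, div_mul_eq_mul_div, le_div_iff₀ (by positivity), ← qq_neg, neg_sub]
    have h1 := (h (v l - toR k)).2
    have h2 : R ^ 2 ≤ ‖T (v l - toR k)‖ ^ 2 := pow_le_pow_left₀ hR.le (hv l hl k) 2
    have h3 := qq_nonneg hH.posSemidef (v l - toR k)
    nlinarith
  refine ⟨k, fun y => ?_, hL⟩
  have h1 := dot_sq_le hG y (toR k)
  rw [qq_smul_mat, dotProduct_comm] at h1
  have h2 := (h y).1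
  have h3 := qq_nonneg hH.posSemidef y
  have h4 := qq_nonneg hG.inv.posSemidef (toR k)
  refine abs_le_of_sq_le_sq' ?_ (by positivity) |>.2
  rw [mul_pow, sq_abs, mul_pow]
  have h5 : (m + 1) * (m + 2) / R ^ 2 * qq H y * qq (((m + 1) * (m + 2) / R ^ 2) • H)⁻¹ (toR k) ≤
      (m + 1) * (m + 2) / R ^ 2 * (m * ‖T y‖ ^ 2) * (m + 2) := by gcongr
  have h6 := mul_le_mul_of_nonneg_right (h1.trans h5) (sq_nonneg R)
  have h7 : (m + 1) * (m + 2) / R ^ 2 * (m * ‖T y‖ ^ 2) * (m + 2) * R ^ 2 =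
      m * (m + 1) * (m + 2) ^ 2 * ‖T y‖ ^ 2 := by field_simp
  rw [h7] at h6
  refine h6.trans (mul_le_mul_of_nonneg_right ?_ (sq_nonneg _))
  have h8 : m * (m + 1) ≤ (m + 2) ^ 2 := by nlinarith
  calc m * (m + 1) * (m + 2) ^ 2 ≤ (m + 2) ^ 2 * (m + 2) ^ 2 := by gcongr
    _ = ((m + 2) ^ 2) ^ 2 := by ring

open Classical in
/-- few characters separate all far points -/
theorem sep (T : (κ → ℝ) →ₗ[ℝ] W) (hT : Function.Injective T) {R : ℝ} (hR : 0 < R) {α : Type}
    (v : α → κ → ℝ) (t : ℕ) : ∀ L : Finset α, (L.card : ℝ) * (3 / 4) ^ t < 1 →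
    (∀ l ∈ L, ∀ k : κ → ℤ, R ≤ ‖T (v l - zc k)‖) →
    ∃ k : Fin t → κ → ℤ, (∀ j y, |zc (k j) ⬝ᵥ y| * R ≤ ((Fintype.card κ : ℝ) + 2) ^ 2 * ‖T y‖) ∧
      ∀ l ∈ L, ∃ j, Far (zc (k j) ⬝ᵥ v l) := by
  induction t with
  | zero =>
    intro L h _
    obtain rfl : L = ∅ := by simpa using h
    exact ⟨Fin.elim0, fun j => j.elim0, by simp⟩
  | succ t ih =>
    intro L h hL
    obtain ⟨s, hs0, hs⟩ := sep_one T hT hR L v hL
    have h1 := card_filter_add_card_filter_not (s := L) fun l => Far (zc s ⬝ᵥ v l)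
    obtain ⟨r, h2, h3⟩ := ih {l ∈ L | ¬ Far (zc s ⬝ᵥ v l)} (by
      refine lt_of_le_of_lt ?_ h
      rw [pow_succ', ← mul_assoc]
      refine mul_le_mul_of_nonneg_right ?_ (by positivity)
      have : 4 * #{l ∈ L | ¬ Far (zc s ⬝ᵥ v l)} ≤ 3 * #L := by omega
      have := (Nat.cast_le (α := ℝ)).2 this
      push_cast at this
      linarith) fun l hl => hL l (mem_filter.1 hl).1
    refine ⟨Fin.cons s r, Fin.cases hs0 h2, fun l hl => ?_⟩
    by_cases k : Far (zc s ⬝ᵥ v l)
    · exact ⟨0, k⟩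
    · obtain ⟨j, hj⟩ := h3 l (mem_filter.2 ⟨hl, k⟩)
      exact ⟨j.succ, hj⟩

end

end Vale.Agent.P057FT
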