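import Vale.Agent.P057FT.Sep
import Vale.Agent.P057FT.Apb

/-! The distance to the integer lattice, a finite model of the torus, and the selection of a
subset on which all relations nearly hold. -/

set_option linter.all false

open Finset
open scoped BigOperators

namespace Vale.Agent.P057FT

open Vale.Agent.P057Z.Fr Vale.Agent.P057HU

noncomputable section

variable {κ W : Type} [Fintype κ] [NormedAddCommGroup W] [NormedSpace ℝ W]

/-- `y` is within `r` of the integer lattice -/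
def Cz (T : (κ → ℝ) →ₗ[ℝ] W) (r : ℝ) (y : κ → ℝ) : Prop := ∃ k : κ → ℤ, ‖T (y - zc k)‖ ≤ r

/-- the distance to the integer lattice -/
def dz (T : (κ → ℝ) →ₗ[ℝ] W) (y : κ → ℝ) : ℝ := ⨅ k : κ → ℤ, ‖T (y - zc k)‖

variable {T : (κ → ℝ) →ₗ[ℝ] W}

theorem Cz.add {r s : ℝ} {x y : κ → ℝ} (h1 : Cz T r x) (h2 : Cz T s y) : Cz T (r + s) (x + y) := by
  obtain ⟨a, h1⟩ := h1
  obtain ⟨b, h2⟩ := h2
  refine ⟨a + b, ?_⟩
  rw [map_add, show x + y - (zc a + zc b) = (x - zc a) + (y - zc b) by abel, map_add]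
  exact (norm_add_le _ _).trans (add_le_add h1 h2)

theorem Cz.neg {r : ℝ} {x : κ → ℝ} (h1 : Cz T r x) : Cz T r (-x) := by
  obtain ⟨a, h1⟩ := h1
  refine ⟨-a, ?_⟩
  rwa [map_neg, show -x - -zc a = -(x - zc a) by abel, map_neg, norm_neg]

theorem Cz.sub {r s : ℝ} {x y : κ → ℝ} (h1 : Cz T r x) (h2 : Cz T s y) : Cz T (r + s) (x - y) := by
  rw [sub_eq_add_neg]
  exact h1.add h2.neg

theorem Cz.mono {r s : ℝ} {x : κ → ℝ} (h1 : Cz T r x) (h : r ≤ s) : Cz T s x :=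
  h1.imp fun _ h1 => h1.trans h

theorem Cz.congr {r : ℝ} {x y : κ → ℝ} (h1 : Cz T r x) (h : y = x) : Cz T r y := h ▸ h1

theorem Cz.of_norm {r : ℝ} {x : κ → ℝ} (h : ‖T x‖ ≤ r) : Cz T r x :=
  ⟨0, by rwa [map_zero, sub_zero]⟩

theorem Cz.int (k : κ → ℤ) : Cz T 0 (zc k) := ⟨k, by simp⟩

theorem Cz.nonneg {r : ℝ} {x : κ → ℝ} (h : Cz T r x) : 0 ≤ r :=
  h.elim fun _ h => (norm_nonneg _).trans h

theorem dz_le (y : κ → ℝ) (k : κ → ℤ) : dz T y ≤ ‖T (y - zc k)‖ :=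
  ciInf_le ⟨0, by rintro _ ⟨k, rfl⟩; exact norm_nonneg _⟩ k

theorem Cz.dz_le {r : ℝ} {y : κ → ℝ} (h : Cz T r y) : dz T y ≤ r :=
  h.elim fun k h => (P057FT.dz_le y k).trans h

theorem cz_dz (hT : Function.Injective T) (y : κ → ℝ) : Cz T (dz T y) y := by
  obtain ⟨k, -, hk⟩ := (lb T (2 * ‖T y‖)).exists_min_image (fun k => ‖T (y - zc k)‖)
    ⟨0, (bl_lb T hT).zero_mem (by positivity)⟩
  refine ⟨k, le_ciInf fun j => ?_⟩
  by_cases hj : j ∈ lb T (2 * ‖T y‖)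
  · exact hk j hj
  · have h1 := hk 0 ((bl_lb T hT).zero_mem (by positivity))
    rw [map_zero, sub_zero] at h1
    rw [(bl_lb T hT).mem, not_le, ln] at hj
    have h2 := norm_sub_le (T y) (T (y - zc j))
    rw [← map_sub, sub_sub_cancel] at h2
    linarith

theorem cz_iff (hT : Function.Injective T) {r : ℝ} {y : κ → ℝ} : Cz T r y ↔ dz T y ≤ r :=
  ⟨Cz.dz_le, (cz_dz hT y).mono⟩

theorem sz_dz (hT : Function.Injective T) : Sz (dz T) :=
  ⟨fun x y => ((cz_dz hT x).add (cz_dz hT y)).dz_le,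
    fun x => le_antisymm (cz_dz hT x).neg.dz_le
      ((cz_dz hT (-x)).neg.congr (neg_neg x).symm).dz_le,
    le_antisymm (Cz.of_norm (by simp)).dz_le (cz_dz hT 0).nonneg⟩

theorem dz_sub_int (hT : Function.Injective T) (y : κ → ℝ) (k : κ → ℤ) :
    dz T (y - zc k) = dz T y := by
  refine le_antisymm ?_ ?_
  · simpa using ((cz_dz hT y).sub (Cz.int k)).dz_le
  · simpa using ((cz_dz hT (y - zc k)).add (Cz.int k)).dz_le

/-- the point of the fine lattice -/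
def fv (q : ℕ) : (κ → ℤ) →+ (κ → ℝ) where
  toFun u := ((q : ℝ) + 1)⁻¹ • zc u
  map_zero' := by simp
  map_add' x y := by simp

/-- an integer representative -/
def vl {q : ℕ} (y : κ → ZMod (q + 1)) : κ → ℤ := fun i => ((y i).val : ℤ)

theorem rd_vl {q : ℕ} (y : κ → ZMod (q + 1)) : rd κ (q + 1) (vl y) = y := by
  funext i
  simp [rd, vl]

/-- the size function of the finite model -/
def fN (T : (κ → ℝ) →ₗ[ℝ] W) (q : ℕ) (y : κ → ZMod (q + 1)) : ℝ := dz T (fv q (vl y))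

theorem fN_rd (hT : Function.Injective T) (q : ℕ) (u : κ → ℤ) :
    fN T q (rd κ (q + 1) u) = dz T (fv q u) := by
  rw [fN, ← dz_sub_int hT (fv q u) fun i => u i / ((q + 1 : ℕ) : ℤ)]
  congr 1
  funext i
  have h1 : (vl (rd κ (q + 1) u) i : ℤ) = u i % ((q + 1 : ℕ) : ℤ) := ZMod.val_intCast _
  have h2 := Int.emod_add_mul_ediv (u i) ((q + 1 : ℕ) : ℤ)
  rw [← h1] at h2
  have h3 : ((vl (rd κ (q + 1) u) i : ℤ) : ℝ) + ((q : ℝ) + 1) * ((u i / ((q + 1 : ℕ) : ℤ) : ℤ) : ℝ) =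
      (u i : ℝ) := by exact_mod_cast h2
  show ((q : ℝ) + 1)⁻¹ * ((vl (rd κ (q + 1) u) i : ℤ) : ℝ) =
    ((q : ℝ) + 1)⁻¹ * (u i : ℝ) - ((u i / ((q + 1 : ℕ) : ℤ) : ℤ) : ℝ)
  rw [← h3]
  field_simp
  ring

theorem fN_sub (hT : Function.Injective T) (q : ℕ) (x y : κ → ZMod (q + 1)) :
    fN T q (x - y) = dz T (fv q (vl x) - fv q (vl y)) := by
  rw [← map_sub, ← fN_rd hT, map_sub, rd_vl, rd_vl]

theorem sz_fN (hT : Function.Injective T) (q : ℕ) : Sz (fN T q) := by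
  refine ⟨fun x y => ?_, fun x => ?_, ?_⟩
  · conv_lhs => rw [← rd_vl x, ← rd_vl y, ← map_add, fN_rd hT, map_add]
    exact (sz_dz hT).add _ _
  · conv_lhs => rw [← rd_vl x, ← map_neg, fN_rd hT, map_neg, (sz_dz hT).neg]
    rfl
  · rw [← map_zero (rd κ (q + 1)), fN_rd hT, map_zero, (sz_dz hT).zero]

theorem bl_fN [DecidableEq κ] (hT : Function.Injective T) (q : ℕ) :
    Bl (fN T q) (fun r => univ.filter fun y => fN T q y ≤ r) (Fintype.card κ) := by
  refine bl_of_few (sz_fN hT q) (fun r x => by simp) fun r hr s h1 h2 => ?_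
  choose k hk using fun y : κ → ZMod (q + 1) => cz_dz hT (fv q (vl y))
  refine pack T s (fun y => fv q (vl y) - zc (k y)) hr (fun x hx => (hk x).trans (h1 x hx))
    fun x hx y hy hxy => (h2 x hx y hy hxy).le.trans ?_
  rw [fN_sub hT]
  refine (dz_le _ (k x - k y)).trans_eq ?_
  rw [map_sub zc]
  congr 2
  abel

/-- rounding to a fine lattice -/
theorem exists_round (T : (κ → ℝ) →ₗ[ℝ] W) {η : ℝ} (hη : 0 < η) :
    ∃ (q : ℕ) (u : (κ → ℝ) → κ → ℤ), ∀ y, ‖T (y - fv q (u y))‖ ≤ η := by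
  obtain ⟨q, hq⟩ := exists_nat_ge (‖LinearMap.toContinuousLinearMap T‖ / η)
  refine ⟨q, fun y i => ⌊((q : ℝ) + 1) * y i⌋, fun y => ?_⟩
  have hp : (0 : ℝ) < (q : ℝ) + 1 := by positivity
  have h1 : ‖y - fv q fun i => ⌊((q : ℝ) + 1) * y i⌋‖ ≤ ((q : ℝ) + 1)⁻¹ := by
    refine (pi_norm_le_iff_of_nonneg (by positivity)).2 fun i => ?_
    show |y i - ((q : ℝ) + 1)⁻¹ * (⌊((q : ℝ) + 1) * y i⌋ : ℝ)| ≤ _
    have e : y i - ((q : ℝ) + 1)⁻¹ * (⌊((q : ℝ) + 1) * y i⌋ : ℝ) =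
        ((q : ℝ) + 1)⁻¹ * Int.fract (((q : ℝ) + 1) * y i) := by
      unfold Int.fract
      field_simp
    rw [e, abs_of_nonneg (mul_nonneg (by positivity) (Int.fract_nonneg _))]
    exact mul_le_of_le_one_right (by positivity) (Int.fract_lt_one _).le
  refine ((LinearMap.toContinuousLinearMap T).le_of_opNorm_le_of_le le_rfl h1).trans ?_
  rw [← div_eq_mul_inv, div_le_iff₀ hp]
  rw [div_le_iff₀ hη] at hq
  nlinarith

theorem cell {s t : ℝ} (h : ⌊1200 * Int.fract s⌋₊ = ⌊1200 * Int.fract t⌋₊) :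
    |s - t - ((⌊s⌋ - ⌊t⌋ : ℤ) : ℝ)| ≤ 1 / 1200 := by
  have h1 := Nat.floor_le (a := 1200 * Int.fract s) (by have := Int.fract_nonneg s; positivity)
  have h2 := Nat.floor_le (a := 1200 * Int.fract t) (by have := Int.fract_nonneg t; positivity)
  have h3 := Nat.lt_floor_add_one (1200 * Int.fract s)
  have h4 := Nat.lt_floor_add_one (1200 * Int.fract t)
  rw [h] at h1 h3
  unfold Int.fract at *
  push_cast
  rw [abs_le]
  constructor <;> linarith

/-- a large subset on which all relations of six terms nearly hold -/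
theorem rnd [DecidableEq κ] (hT : Function.Injective T) {G α : Type} [AddCommGroup G]
    (g : G → κ → ℝ) (B : Finset G) (L : Finset α) (v : α → κ → ℝ) {r : ℝ} (hr : 0 < r) (t : ℕ)
    (ht : (L.card : ℝ) * (3 / 4) ^ t < 1) (hc : ∀ z ∈ Rel g B 6, ∃ l ∈ L, Cz T r (z - v l)) :
    ∃ S ⊆ B, B.card ≤ 1200 ^ t * S.card ∧
      ∀ z ∈ Rel g S 6, Cz T (100 * ((Fintype.card κ : ℝ) + 2) ^ 2 * r + r) z := by
  classical
  set R := 100 * ((Fintype.card κ : ℝ) + 2) ^ 2 * r with hR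
  have hR0 : 0 < R := by positivity
  obtain ⟨s, hs, hs'⟩ := sep T hT hR0 v t (L.filter fun l => ¬ Cz T R (v l))
    (lt_of_le_of_lt (mul_le_mul_of_nonneg_right
      (Nat.cast_le.2 (card_filter_le _ _)) (by positivity)) ht)
    fun l hl k => le_of_lt (not_le.1 fun h => (mem_filter.1 hl).2 ⟨k, h⟩)
  set φ : G → Fin t → ℕ := fun b j => ⌊1200 * Int.fract (zc (s j) ⬝ᵥ g b)⌋₊ with hφ
  obtain ⟨c, -, hcm⟩ := exists_max_image (Fintype.piFinset fun _ : Fin t => range 1200)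
    (fun c => (B.filter fun b => φ b = c).card) ⟨fun _ => 0, by simp⟩
  refine ⟨B.filter fun b => φ b = c, filter_subset _ _, ?_, ?_⟩
  · have := card_le_mul_card_image_of_maps_to (f := φ) (s := B) (fun b _ =>
      Fintype.mem_piFinset.2 fun j => mem_range.2 (by
        refine (Nat.floor_lt (by have := Int.fract_nonneg (zc (s j) ⬝ᵥ g b); positivity)).2 ?_
        have := Int.fract_lt_one (zc (s j) ⬝ᵥ g b)
        push_cast
        linarith)) _ hcm
    simpa [mul_comm] using this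
  · rintro z ⟨u, w, hu, hw, huw, hz⟩
    obtain ⟨l, hl, h1⟩ := hc z
      ⟨u, w, fun i => (mem_filter.1 (hu i)).1, fun i => (mem_filter.1 (hw i)).1, huw, hz⟩
    have h2 : Cz T R (v l) := by
      by_contra h2
      obtain ⟨j, hj⟩ := hs' l (mem_filter.2 ⟨hl, h2⟩)
      obtain ⟨k, hk⟩ := h1
      have h3 : |zc (s j) ⬝ᵥ z - ((∑ i, (⌊zc (s j) ⬝ᵥ g (u i)⌋ - ⌊zc (s j) ⬝ᵥ g (w i)⌋) : ℤ) : ℝ)| ≤
          1 / 200 := by
        rw [hz, ← sum_sub_distrib, dotProduct_sum, Int.cast_sum, ← sum_sub_distrib]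
        refine (abs_sum_le_sum_abs _ _).trans
          ((sum_le_card_nsmul _ _ (1 / 1200) fun i _ => ?_).trans_eq ?_)
        · rw [dotProduct_sub]
          exact cell (congrFun ((mem_filter.1 (hu i)).2.trans (mem_filter.1 (hw i)).2.symm) j)
        · simp
          norm_num
      have h4 : |zc (s j) ⬝ᵥ (z - v l - zc k)| ≤ 1 / 100 := by
        refine le_of_mul_le_mul_right (((hs j _).trans
          (mul_le_mul_of_nonneg_left hk (by positivity))).trans_eq ?_) hR0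
        rw [hR]
        ring
      have h5 := hj (∑ i, (⌊zc (s j) ⬝ᵥ g (u i)⌋ - ⌊zc (s j) ⬝ᵥ g (w i)⌋) - s j ⬝ᵥ k)
      have h6 : ((s j ⬝ᵥ k : ℤ) : ℝ) = zc (s j) ⬝ᵥ zc k := by
        simp [dotProduct, zc]
      rw [dotProduct_sub, dotProduct_sub] at h4
      rw [Int.cast_sub, h6] at h5
      have h7 := abs_le.1 h3
      have h8 := abs_le.1 h4
      rcases le_abs.1 h5 with h9 | h9 <;> linarith
    exact (h2.add h1).congr (by abel)

end

end Vale.Agent.P057FT
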